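import Vale.Agent.P146.Lb.LDefs

/-!
# P146, L1, section DEC: `M' ≤ K (r l + t) - c m` near the level `0`

`M' = E G'''² - 2 m E G''³`. The first term is at most `K² E G'² = K² R ≤ K² (r l + t)`; for the
second `y³ ≥ 3/2 a y² - a³/2` (`y = G'' ≥ 0`) and `M = E G''² ≥ 1/K² - 2 (r l + t)`.
-/

open MeasureTheory ProbabilityTheory Filter Topology Set

namespace Vale.Agent.P146.Lb

open Vale.Agent.P157.Par
open Vale.Agent.P146.Gap
open Vale.Agent.P146.Pw2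
open Vale.Agent.P367.Cl

variable {n l : ℕ} {m r : ℕ → ℝ} {t : ℝ}

/-- `R ≤ r l + t` -/
theorem dec_Rb_le (hm : Exponents n m) (hr : Path n r) (h0 : r 0 = 0) (hl : l < n)
    (ht : t ∈ Icc 0 (r (l + 1) - r l)) : Rb n m r l t ≤ r l + t := by
  have hs := spR_le hm hr h0 hl.le
  rcases ht.1.eq_or_lt with h | h
  · rw [← h, Rb_zero hm hr hl, add_zero]
    exact hs
  obtain ⟨x, hx, hxe⟩ := exists_hasDerivAt_eq_slope (Rb n m r l) (Mb n m r l) h
    ((Rb_cont hm hr hl).mono (Icc_subset_Icc le_rfl ht.2))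
    (fun x hx => Rb_deriv hm hr hl ⟨hx.1, hx.2.trans_le ht.2⟩)
  have h1 := (Mb_mem hm hr hl ⟨hx.1.le, (hx.2.trans_le ht.2).le⟩).2
  rw [hxe, sub_zero, div_le_one h, Rb_zero hm hr hl] at h1
  linarith

/-- `M ≥ exp (-2 r l) M_0` at the level `l` -/
theorem dec_Ml_low {b : ℝ} (hm : Exponents n m) (hr : BPath b n r) (hl : l ≤ n) :
    Real.exp (-2 * r l) * Ml n m r 0 ≤ Ml n m r l := by
  induction l with
  | zero => rw [hr.1, mul_zero, Real.exp_zero, one_mul]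
  | succ l ih =>
    have h1 := ih (by omega)
    have h2 := Ml_low hm hr (show l < n by omega)
    calc Real.exp (-2 * r (l + 1)) * Ml n m r 0
        = Real.exp (-2 * (r (l + 1) - r l)) * (Real.exp (-2 * r l) * Ml n m r 0) := by
          rw [← mul_assoc, ← Real.exp_add]
          congr 2
          ring
      _ ≤ Real.exp (-2 * (r (l + 1) - r l)) * Ml n m r l :=
          mul_le_mul_of_nonneg_left h1 (Real.exp_pos _).le
      _ ≤ _ := h2

/-- inside of a block `M` decreases at most at the speed `2` -/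
theorem dec_Mb_low (hm : Exponents n m) (hr : Path n r) (hl : l < n)
    (ht : t ∈ Icc 0 (r (l + 1) - r l)) : Ml n m r l - 2 * t ≤ Mb n m r l t := by
  obtain ⟨g0, g1⟩ := sp7_exp_of hm l hl
  rcases ht.1.eq_or_lt with h | h
  · rw [← h, Mb_zero hm hr hl]
    linarith
  obtain ⟨x, hx, hxe⟩ := exists_hasDerivAt_eq_slope (Mb n m r l) (M1b n m r l) h
    ((Mb_cont hm hr hl).mono (Icc_subset_Icc le_rfl ht.2))
    (fun x hx => Mb_deriv hm hr hl ⟨hx.1, hx.2.trans_le ht.2⟩)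
  have h1 := M1b_low hm hr hl ⟨hx.1.le, (hx.2.trans_le ht.2).le⟩
  have h2 : (-2 : ℝ) ≤ M1b n m r l x := by linarith
  rw [hxe, sub_zero, le_div_iff₀ h, Mb_zero hm hr hl] at h2
  linarith

theorem dec_Bt_add (hm : Exponents n m) (hr : Path n r) (hl : l < n)
    (ht : t ∈ Icc 0 (r (l + 1) - r l)) {ψ φ : ℝ → ℝ} (hψ : Sp7Cb ψ) (hφ : Sp7Cb φ) :
    Bt n m r l t (fun x => ψ x + φ x) = Bt n m r l t ψ + Bt n m r l t φ := by
  obtain ⟨C, hG⟩ := blk2_adm hm hr hl ht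
  have e : tlt (m (l + 1)) t (Gb n m r l t) (fun x => ψ x + φ x) = fun x =>
      tlt (m (l + 1)) t (Gb n m r l t) ψ x + tlt (m (l + 1)) t (Gb n m r l t) φ x := by
    funext x
    obtain ⟨hc, K, hK⟩ := hψ
    obtain ⟨hc', K', hK'⟩ := hφ
    exact (adm_ec hG).sm.tlt_add hc hK hc' hK' _ _ x
  rw [Bt, e, ee_add hm hr hl.le (sp7_cb_tlt (adm_ec hG) hψ _ _) (sp7_cb_tlt (adm_ec hG) hφ _ _)]
  rfl

theorem dec_Bt_smul (c : ℝ) (ψ : ℝ → ℝ) :
    Bt n m r l t (fun x => c * ψ x) = c * Bt n m r l t ψ := by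
  have e : tlt (m (l + 1)) t (Gb n m r l t) (fun x => c * ψ x) = fun x =>
      c * tlt (m (l + 1)) t (Gb n m r l t) ψ x := by
    funext x
    exact tlt_const_mul _ _ _ _ _ x
  rw [Bt, e, ee_smul]
  rfl

theorem decD (b : ℝ) : ∃ c K : ℝ, 0 < c ∧ 1 ≤ K ∧ ∀ (n : ℕ) (r : ℕ → ℝ), BPath b n r →
    ∀ l < n, ∀ t ∈ Icc 0 (r (l + 1) - r l), r l + t ≤ c →
      M1b n (gm n) r l t ≤ K * (r l + t) - c * gm n (l + 1) := by
  obtain ⟨K, hK1, hK⟩ := fl_bk b
  have hK0 : 0 < K := by linarith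
  refine ⟨1 / (4 * K ^ 3), K ^ 2, by positivity, by nlinarith, fun n r hr l hl t ht hc => ?_⟩
  have hm := gm_exponents n
  have hp := hr.2.1
  obtain ⟨hA, hB⟩ := hK n (gm n) r hm hr
  obtain ⟨g0, g1⟩ := sp7_exp_of hm l hl
  have hG : AK K (Gb n (gm n) r l t) := hB l hl (r (l + 1) - r l - t) ⟨by linarith [ht.2],
    by linarith [ht.1]⟩
  have hrl : 0 ≤ r l := by
    have := gapn_path_le hp (Nat.zero_le l) hl.le
    rwa [hr.1] at this
  -- the lower bound of `M`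
  have hK3 : 1 / (4 * K ^ 3) ≤ 1 / (4 * K ^ 2) := by
    refine one_div_le_one_div_of_le (by positivity) ?_
    have : K ^ 2 * 1 ≤ K ^ 2 * K := mul_le_mul_of_nonneg_left hK1 (by positivity)
    linarith [show K ^ 3 = K ^ 2 * K by ring]
  have hM0 : 1 / K ^ 2 ≤ Ml n (gm n) r 0 := by
    rw [Ml_zero hr.1, ← fl_zero]
    have h1 := (hA 0 (Nat.zero_le n)).low0
    have h2 : 1 / K ≤ iteratedDeriv 2 (Fl n (gm n) r 0) 0 := by
      rw [div_le_iff₀ hK0]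
      linarith
    have h3 := pow_le_pow_left₀ (by positivity) h2 2
    rwa [one_div_pow] at h3
  have hM : 1 / (2 * K ^ 2) ≤ Mb n (gm n) r l t := by
    have h1 := dec_Mb_low hm hp hl ht
    have h2 := dec_Ml_low hm hr hl.le
    have h3 : 1 - 2 * r l ≤ Real.exp (-2 * r l) := by
      have := Real.add_one_le_exp (-2 * r l)
      linarith
    have hK2 : 1 / K ^ 2 ≤ 1 := by
      rw [div_le_one (by positivity)]
      nlinarith
    have hKp : 0 < 1 / K ^ 2 := by positivity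
    have hrc : r l ≤ 1 / (4 * K ^ 2) := by linarith [ht.1]
    have e4 : 1 / (4 * K ^ 2) = 1 / 4 * (1 / K ^ 2) := by
      field_simp
    have e2 : 1 / (2 * K ^ 2) = 1 / 2 * (1 / K ^ 2) := by
      field_simp
    rw [e2]
    rw [e4] at hrc hK3
    have h4 : (1 - 2 * r l) * (1 / K ^ 2) ≤ Real.exp (-2 * r l) * Ml n (gm n) r 0 :=
      mul_le_mul h3 hM0 hKp.le (Real.exp_pos _).le
    have h5 : 2 * r l * (1 / K ^ 2) ≤ 2 * r l * 1 := mul_le_mul_of_nonneg_left hK2 (by linarith)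
    have h6 : r l + t ≤ 1 / 4 * (1 / K ^ 2) := hc.trans hK3
    linarith
  have hR := dec_Rb_le hm hp hr.1 hl ht
  -- the integrand
  obtain ⟨g, hg⟩ : ∃ g, g = gm n (l + 1) := ⟨_, rfl⟩
  obtain ⟨a, ha⟩ : ∃ a, a = 1 / (2 * K) := ⟨_, rfl⟩
  have ha0 : 0 < a := by rw [ha]; positivity
  have hc1 : Sp7Cb (fun x => iteratedDeriv 1 (Gb n (gm n) r l t) x ^ 2) :=
    sp7_cb_sq (blk2_cb ⟨K, hG.adm⟩ 0)
  have hc2 : Sp7Cb (fun x => iteratedDeriv 2 (Gb n (gm n) r l t) x ^ 2) :=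
    sp7_cb_sq (blk2_cb ⟨K, hG.adm⟩ 1)
  have hd1 := nest_cb_smul (K ^ 2) hc1
  have hd2 := nest_cb_smul (-(3 * g * a)) hc2
  have h1 := blk2_mono hm hp hl ht (blk2_cb3 ⟨K, hG.adm⟩ (gm n (l + 1)))
    (sp7_cb_add (sp7_cb_add hd1 hd2) (sp7_cb_const (g * a ^ 3))) (fun x => by
      have h2 := vari_d2_01 hG.adm x
      have h3 : iteratedDeriv 3 (Gb n (gm n) r l t) x ^ 2 ≤
          K ^ 2 * iteratedDeriv 1 (Gb n (gm n) r l t) x ^ 2 := by
        have := pow_le_pow_left₀ (abs_nonneg _) (hG.k3 x) 2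
        rwa [mul_pow, sq_abs, sq_abs] at this
      rw [← hg] at g0 ⊢
      obtain ⟨y, hy⟩ : ∃ y, y = iteratedDeriv 2 (Gb n (gm n) r l t) x := ⟨_, rfl⟩
      rw [← hy] at h2 ⊢
      have h4 : 0 ≤ g * ((y - a) ^ 2 * (2 * y + a)) :=
        mul_nonneg g0.le (mul_nonneg (sq_nonneg _) (by linarith [h2.1]))
      have h5 : g * ((y - a) ^ 2 * (2 * y + a)) =
          2 * g * y ^ 3 - 3 * g * a * y ^ 2 + g * a ^ 3 := by ring
      linarith)
  rw [dec_Bt_add hm hp hl ht (sp7_cb_add hd1 hd2) (sp7_cb_const _),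
    dec_Bt_add hm hp hl ht hd1 hd2, dec_Bt_smul, dec_Bt_smul, blk2_const hm hp hl ht] at h1
  have h2 : M1b n (gm n) r l t ≤ K ^ 2 * Rb n (gm n) r l t +
      -(3 * g * a) * Mb n (gm n) r l t + g * a ^ 3 := h1
  have h3 : K ^ 2 * Rb n (gm n) r l t ≤ K ^ 2 * (r l + t) :=
    mul_le_mul_of_nonneg_left hR (by positivity)
  have e1 : 1 / (2 * K ^ 2) = 2 * a ^ 2 := by
    rw [ha]
    field_simp
  have e2 : 1 / (4 * K ^ 3) = 2 * a ^ 3 := by
    rw [ha]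
    field_simp
    norm_num
  rw [e1] at hM
  rw [e2, ← hg]
  rw [← hg] at g0
  have h4 : 3 * g * a * (2 * a ^ 2) ≤ 3 * g * a * Mb n (gm n) r l t :=
    mul_le_mul_of_nonneg_left hM (by positivity)
  have h5 : 0 ≤ g * a ^ 3 := by positivity
  have e3 : 3 * g * a * (2 * a ^ 2) = 6 * (g * a ^ 3) := by ring
  have e4 : 2 * a ^ 3 * g = 2 * (g * a ^ 3) := by ring
  rw [e3] at h4
  rw [e4]
  linarith

end Vale.Agent.P146.Lb
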