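import Vale.Agent.P367.Cl.FSum

/-!
# P146, lower bound of the exponential moments, Parisi side (L1): definitions

The minimiser over the paths which vanish below the level `d`.
-/

open MeasureTheory ProbabilityTheory Filter Topology Set

namespace Vale.Agent.P146.Lb

open Vale.Agent.P157.Par
open Vale.Agent.P146.Gap
open Vale.Agent.P146.Pw2
open Vale.Agent.P367.Cl

/-- `r` is a minimiser over the paths which vanish below the level `d`. -/
def IsMinD (b : ℝ) (n d : ℕ) (r : ℕ → ℝ) : Prop :=
  BPath b n r ∧ (∀ l < d, r l = 0) ∧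
    ∀ r', BPath b n r' → (∀ l < d, r' l = 0) → SKr b n (gm n) r ≤ SKr b n (gm n) r'

end Vale.Agent.P146.Lb
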