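import Vale.Agent.P146.Lb.LDefs

/-!
# P146, L1: minimisers over the paths which vanish below a level: existence and stationarity
-/

open MeasureTheory ProbabilityTheory Filter Topology Set

namespace Vale.Agent.P146.Lb

open Vale.Agent.P157.Par
open Vale.Agent.P146.Gap
open Vale.Agent.P146.Pw2
open Vale.Agent.P367.Cl

/-- existence of a minimiser -/
theorem exists_minD {b : ℝ} (hb : 0 < b) {n d : ℕ} (hd : d ≤ n) : ∃ r, IsMinD b n d r := by
  have hm := gm_exponents n
  obtain ⟨emono, e0, e1⟩ := minb_exp hm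
  set X : Set (Fin (n + 1) → ℝ) := {x | BPath b n (minbFin n x) ∧ ∀ l < d, minbFin n x l = 0}
    with hX
  have hclosed : IsClosed X := by
    have h1 : X = ({x | minbFin n x 0 = 0} ∩ ({x | 0 ≤ minbFin n x 0} ∩
        (⋂ l : ℕ, ⋂ _ : l < n, {x | minbFin n x l ≤ minbFin n x (l + 1)})) ∩
        {x | minbFin n x n ≤ b ^ 2}) ∩ (⋂ l : ℕ, ⋂ _ : l < d, {x | minbFin n x l = 0}) := by
      ext x
      simp only [hX, BPath, Vale.Agent.P157.Par.Path, Set.mem_ofPred_eq, mem_inter_iff, mem_iInter]
      tauto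
    rw [h1]
    refine IsClosed.inter (IsClosed.inter (IsClosed.inter ?_ (IsClosed.inter ?_ ?_)) ?_) ?_
    · exact isClosed_eq (minb_fin_cont n 0) continuous_const
    · exact isClosed_le continuous_const (minb_fin_cont n 0)
    · exact isClosed_iInter fun l => isClosed_iInter fun _ =>
        isClosed_le (minb_fin_cont n l) (minb_fin_cont n (l + 1))
    · exact isClosed_le (minb_fin_cont n n) continuous_const
    · exact isClosed_iInter fun l => isClosed_iInter fun _ =>
        isClosed_eq (minb_fin_cont n l) continuous_const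
  have hsub : X ⊆ Icc (fun _ => 0) (fun _ => b ^ 2) := by
    intro x hx
    obtain ⟨⟨h0, ⟨-, h1⟩, h2⟩, -⟩ := hx
    have key : ∀ i : Fin (n + 1), minbFin n x i = x i := fun i => by
      unfold minbFin; rw [dif_pos i.2]
    constructor
    · intro i
      have := minb_mono h1 (Nat.zero_le i) (by omega)
      rw [h0, key i] at this
      exact this
    · intro i
      have := minb_mono h1 (i := i) (j := n) (by omega) le_rfl
      rw [key i] at this
      exact this.trans h2
  have hcomp : IsCompact X := (isCompact_Icc).of_isClosed_subset hclosed hsub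
  have hne : X.Nonempty := by
    refine ⟨fun _ => 0, ?_⟩
    have : minbFin n (fun _ => 0) = fun _ => 0 := by
      funext l; unfold minbFin; split_ifs <;> rfl
    rw [hX, Set.mem_ofPred_eq, this]
    exact ⟨⟨rfl, ⟨le_rfl, fun _ _ => le_rfl⟩, by positivity⟩, fun _ _ => rfl⟩
  have hlip : LipschitzOnWith (Real.toNNReal n)
      (fun x : Fin (n + 1) → ℝ => cascade (gm n) (minbFin n x) n lc 0) X := by
    apply LipschitzOnWith.of_dist_le_mul
    intro x hx y hy
    have h1 := minb_cascade_lip (c := n) (fun l h1 h2 => e0 l h1 (by omega))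
      (fun l h1 h2 => e1 l (by omega)) hx.1.2.1.2 hy.1.2.1.2 adm_lc adm_lc (e := 0)
      (fun z => by simp) 0
    rw [Real.dist_eq]
    refine h1.trans ?_
    rw [zero_add, Real.coe_toNNReal _ (Nat.cast_nonneg n)]
    have h2 : ∑ l ∈ Finset.range n, |(minbFin n x (l + 1) - minbFin n x l)
        - (minbFin n y (l + 1) - minbFin n y l)| ≤ ∑ l ∈ Finset.range n, 2 * dist x y := by
      refine Finset.sum_le_sum fun l _ => ?_
      have a1 := minb_fin_dist n (l + 1) x y
      have a2 := minb_fin_dist n l x y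
      calc _ = |(minbFin n x (l + 1) - minbFin n y (l + 1))
            - (minbFin n x l - minbFin n y l)| := by congr 1; ring
        _ ≤ _ := abs_sub _ _
        _ ≤ _ := by linarith
    rw [Finset.sum_const, Finset.card_range, nsmul_eq_mul] at h2
    linarith
  have hcont : ContinuousOn (fun x : Fin (n + 1) → ℝ => SKr b n (gm n) (minbFin n x)) X := by
    have h1 : ContinuousOn (fun x : Fin (n + 1) → ℝ =>
        cascade (gm n) (minbFin n x) n lc 0 - minbFin n x n / 2 + b ^ 2 / 4
          + (∑ l ∈ Finset.range (n + 1), (gm n (l + 1) - gm n l) * minbFin n x l ^ 2) /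
            (4 * b ^ 2)) X := by
      refine ContinuousOn.add (ContinuousOn.add (ContinuousOn.sub hlip.continuousOn ?_) ?_) ?_
      · exact ((minb_fin_cont n n).div_const 2).continuousOn
      · exact continuousOn_const
      · refine (Continuous.div_const (continuous_finsetSum _ fun l _ => ?_) _).continuousOn
        exact continuous_const.mul ((minb_fin_cont n l).pow 2)
    refine h1.congr fun x hx => ?_
    simp only [SKr]
    rw [minb_spin hx.1.1]
  obtain ⟨x, hx, hxm⟩ := hcomp.exists_isMinOn hne hcont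
  refine ⟨minbFin n x, hx.1, hx.2, fun r' hr' hr0 => ?_⟩
  have h1 : ∀ l ≤ n, r' l = minbFin n (fun i => r' i) l := fun l hl => by
    unfold minbFin; rw [dif_pos (by omega)]
  have h2 : BPath b n (minbFin n (fun i => r' i)) := by
    obtain ⟨a0, ⟨a1, a2⟩, a3⟩ := hr'
    refine ⟨by rw [← h1 0 (by omega)]; exact a0, ⟨by rw [← h1 0 (by omega)]; exact a1,
      fun l hl => ?_⟩, by rw [← h1 n le_rfl]; exact a3⟩
    rw [← h1 l (by omega), ← h1 (l + 1) (by omega)]; exact a2 l hl
  have h3 : ∀ l < d, minbFin n (fun i => r' i) l = 0 := fun l hl => by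
    rw [← h1 l (by omega)]; exact hr0 l hl
  rw [minb_SKr_congr h1]
  exact hxm (a := fun i => r' i) ⟨h2, h3⟩

/-- the overlap vanishes where the path vanishes -/
theorem spR_zero {n : ℕ} {m r : ℕ → ℝ} (hm : Exponents n m) (hr : Path n r) (h0 : r 0 = 0)
    {l : ℕ} (hl : l ≤ n) (hrl : r l = 0) : spR n m r l = 0 := by
  have h1 := spR_le hm hr h0 hl
  rw [hrl] at h1
  exact le_antisymm h1 (spR_nonneg hm hr hl)

/-- stationarity: at a minimiser all levels are fixed by the overlap map -/
theorem statD {b : ℝ} (hb : 0 < b) {n d : ℕ} {r : ℕ → ℝ} (h : IsMinD b n d r) :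
    ∀ l ≤ n, r l = b ^ 2 * spR n (gm n) r l := by
  obtain ⟨hr, hr0, hmin⟩ := h
  have hm := gm_exponents n
  have h1 := stat_gain hb hm hr
  have hB := stat_bpath hm hr
  -- the competitor, cut above the level `n`
  set r' : ℕ → ℝ := fun l => if l ≤ n then b ^ 2 * spR n (gm n) r l else 0 with hr'
  have e : ∀ l ≤ n, b ^ 2 * spR n (gm n) r l = r' l := fun l hl => by
    simp only [hr', if_pos hl]
  have hB' : BPath b n r' := by
    obtain ⟨a0, ⟨a1, a2⟩, a3⟩ := hB
    refine ⟨by rw [← e 0 (by omega)]; exact a0, ⟨by rw [← e 0 (by omega)]; exact a1,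
      fun l hl => ?_⟩, by rw [← e n le_rfl]; exact a3⟩
    rw [← e l (by omega), ← e (l + 1) (by omega)]; exact a2 l hl
  have h0' : ∀ l < d, r' l = 0 := by
    intro l hl
    by_cases hln : l ≤ n
    · rw [← e l hln, spR_zero hm hr.2.1 hr.1 hln (hr0 l hl), mul_zero]
    · simp only [hr', if_neg hln]
  have h2 := hmin r' hB' h0'
  rw [← minb_SKr_congr e] at h2
  have hp : ∀ l ∈ Finset.range (n + 1),
      0 ≤ (gm n (l + 1) - gm n l) * (b ^ 2 * spR n (gm n) r l - r l) ^ 2 :=
    fun l hl => mul_nonneg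
      (sub_pos.2 (hm.2.2 l (Nat.lt_succ_iff.1 (Finset.mem_range.1 hl)))).le (sq_nonneg _)
  have h3 : (∑ l ∈ Finset.range (n + 1),
      (gm n (l + 1) - gm n l) * (b ^ 2 * spR n (gm n) r l - r l) ^ 2) = 0 := by
    refine le_antisymm ?_ (Finset.sum_nonneg hp)
    have h4 : (∑ l ∈ Finset.range (n + 1),
        (gm n (l + 1) - gm n l) * (b ^ 2 * spR n (gm n) r l - r l) ^ 2) / (4 * b ^ 2) ≤ 0 := by
      linarith
    by_contra h5
    push Not at h5
    exact absurd (div_pos h5 (show 0 < 4 * b ^ 2 by positivity)) (not_lt.2 h4)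
  intro l hl
  have h5 := (Finset.sum_eq_zero_iff_of_nonneg hp).1 h3 l (Finset.mem_range.2 (by omega))
  have h6 : 0 < gm n (l + 1) - gm n l := sub_pos.2 (hm.2.2 l hl)
  rcases mul_eq_zero.1 h5 with h7 | h7
  · exact absurd h7 h6.ne'
  · have := pow_eq_zero_iff (n := 2) (by norm_num) |>.1 h7
    linarith

end Vale.Agent.P146.Lb
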