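import Vale.Agent.P146.Lb.LMin
import Vale.Agent.P146.Lb.LVup
import Vale.Agent.P146.Lb.LVdn

/-!
# P146, L1, section UNI: uniform bound of `Mb - 1/b²` on the blocks `l ≥ d`
-/

open MeasureTheory ProbabilityTheory Filter Topology Set

namespace Vale.Agent.P146.Lb

open Vale.Agent.P157.Par
open Vale.Agent.P146.Gap
open Vale.Agent.P146.Pw2
open Vale.Agent.P367.Cl

/-- A Lipschitz function with a zero and a small integral of its absolute value is small. -/
theorem luni_real {C V B : ℝ} {k : ℝ → ℝ} (hC : 0 < C)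
    (hk : ContinuousOn k (Icc 0 V))
    (hL : ∀ s ∈ Icc 0 V, ∀ t ∈ Icc 0 V, |k t - k s| ≤ C * |t - s|)
    (hz : ∃ z ∈ Icc 0 V, k z = 0) (hint : ∫ s in (0 : ℝ)..V, |k s| ≤ B) :
    ∀ t ∈ Icc 0 V, k t ^ 2 ≤ 4 * C * B := by
  intro t ht
  obtain ⟨z, hz, hkz⟩ := hz
  obtain ⟨κ, hκ⟩ : ∃ κ, κ = |k t| := ⟨_, rfl⟩
  have hκ0 : 0 ≤ κ := by rw [hκ]; exact abs_nonneg _
  have hκV : κ ≤ C * V := by
    have h1 := hL z hz t ht
    rw [hkz, sub_zero, ← hκ] at h1
    have h2 : |t - z| ≤ V := by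
      rw [abs_le]
      constructor <;> linarith [ht.1, ht.2, hz.1, hz.2]
    exact h1.trans (mul_le_mul_of_nonneg_left h2 hC.le)
  obtain ⟨η, hη⟩ : ∃ η, η = κ / (2 * C) := ⟨_, rfl⟩
  have hη0 : 0 ≤ η := by rw [hη]; positivity
  have hηC : C * η = κ / 2 := by rw [hη]; field_simp
  have hη2 : η ≤ V / 2 := by
    rw [hη, div_le_iff₀ (by positivity)]
    linarith
  have hkey : ∀ a c : ℝ, 0 ≤ a → c ≤ V → c - a = η → (∀ s ∈ Icc a c, |t - s| ≤ η) →
      η * (κ / 2) ≤ B := by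
    intro a c ha hc hac hs
    have hac' : a ≤ c := by linarith
    have hsub : Icc a c ⊆ Icc 0 V := Icc_subset_Icc ha hc
    have hki : ∀ u v : ℝ, 0 ≤ u → v ≤ V → u ≤ v → IntervalIntegrable (fun s => |k s|) volume u v :=
      fun u v hu hv huv =>
        ((hk.mono (Icc_subset_Icc hu hv)).abs).intervalIntegrable_of_Icc huv
    have h1 : ∫ _s in a..c, κ / 2 ≤ ∫ s in a..c, |k s| := by
      refine intervalIntegral.integral_mono_on hac' intervalIntegrable_const
        (hki a c ha hc hac') fun s hs' => ?_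
      have h2 := hL s (hsub hs') t ht
      have h3 := hs s hs'
      have h4 : |k t| ≤ |k t - k s| + |k s| := by
        have := abs_add_le (k t - k s) (k s)
        rwa [sub_add_cancel] at this
      have h5 : C * |t - s| ≤ C * η := mul_le_mul_of_nonneg_left h3 hC.le
      rw [← hκ] at h4
      linarith
    rw [intervalIntegral.integral_const, smul_eq_mul, hac] at h1
    have h2 : ∫ s in a..c, |k s| ≤ ∫ s in (0 : ℝ)..V, |k s| := by
      rw [← intervalIntegral.integral_add_adjacent_intervals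
        (hki 0 a le_rfl (by linarith) ha) (hki a V ha le_rfl (by linarith)),
        ← intervalIntegral.integral_add_adjacent_intervals (hki a c ha hc hac')
        (hki c V (by linarith) le_rfl hc)]
      have h3 : 0 ≤ ∫ s in (0 : ℝ)..a, |k s| :=
        intervalIntegral.integral_nonneg ha fun _ _ => abs_nonneg _
      have h4 : 0 ≤ ∫ s in c..V, |k s| :=
        intervalIntegral.integral_nonneg hc fun _ _ => abs_nonneg _
      linarith
    linarith
  have hfin : η * (κ / 2) ≤ B := by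
    rcases le_or_gt (t + η) V with h | h
    · refine hkey t (t + η) ht.1 h (by ring) fun s hs => ?_
      rw [abs_le]
      constructor <;> linarith [hs.1, hs.2]
    · refine hkey (t - η) t (by linarith) ht.2 (by ring) fun s hs => ?_
      rw [abs_le]
      constructor <;> linarith [hs.1, hs.2]
  have h1 : k t ^ 2 = κ ^ 2 := by rw [hκ, sq_abs]
  rw [h1]
  have h2 : η * (κ / 2) * (4 * C) = κ ^ 2 := by
    rw [hη]
    field_simp
    norm_num
  rw [← h2]
  have h3 := mul_le_mul_of_nonneg_right hfin (show 0 ≤ 4 * C by positivity)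
  linarith

/-- the Lipschitz bound of `Mb` inside a block -/
theorem luni_lip {C : ℝ} {n l : ℕ} {m r : ℕ → ℝ} (hm : Exponents n m)
    (hr : Path n r) (hl : l < n)
    (hC : ∀ t ∈ Icc 0 (r (l + 1) - r l), |M1b n m r l t| ≤ C) {s t : ℝ}
    (hs : s ∈ Icc 0 (r (l + 1) - r l)) (ht : t ∈ Icc 0 (r (l + 1) - r l)) (hst : s ≤ t) :
    |Mb n m r l t - Mb n m r l s| ≤ C * (t - s) := by
  rcases hst.eq_or_lt with h | h
  · rw [h, sub_self, sub_self, abs_zero, mul_zero]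
  obtain ⟨x, hx, hxe⟩ := exists_hasDerivAt_eq_slope (Mb n m r l) (M1b n m r l) h
    ((Mb_cont hm hr hl).mono (Icc_subset_Icc hs.1 ht.2))
    (fun x hx => Mb_deriv hm hr hl ⟨hs.1.trans_lt hx.1, hx.2.trans_le ht.2⟩)
  have h1 := hC x ⟨(hs.1.trans_lt hx.1).le, (hx.2.trans_le ht.2).le⟩
  have h2 : Mb n m r l t - Mb n m r l s = M1b n m r l x * (t - s) := by
    rw [hxe, div_mul_cancel₀ _ (sub_pos.2 h).ne']
  rw [h2, abs_mul, abs_of_pos (sub_pos.2 h)]
  exact mul_le_mul_of_nonneg_right h1 (sub_pos.2 h).le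

/-- uniform bound on the blocks `l ≥ d` of positive length -/
theorem unifD {b : ℝ} (hb : 1 < b) : ∃ C : ℝ, 1 ≤ C ∧ ∀ (n d : ℕ) (r : ℕ → ℝ) (l : ℕ) (e : ℝ),
    IsMinD b n d r → 1 ≤ l → d ≤ l → l < n → r l < r (l + 1) → 0 < e → 1 ≤ e ^ 4 * (n + 1) →
      ∀ t ∈ Icc 0 (r (l + 1) - r l), |Mb n (gm n) r l t - 1 / b ^ 2| ≤ C * e := by
  have hb0 : 0 < b := by linarith
  have hb2 : 0 < b ^ 2 := by positivity
  obtain ⟨C1, hC1, h1⟩ := M1b_bd b
  obtain ⟨C2, hC2, h2⟩ := var_upD hb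
  obtain ⟨C3, hC3, h3⟩ := var_downD hb
  obtain ⟨C, hCd⟩ : ∃ C, C = C1 + C2 + C3 := ⟨_, rfl⟩
  have hC0 : 1 ≤ C := by rw [hCd]; linarith
  obtain ⟨C', hC', hblk⟩ := real_block (C := C) (S := b ^ 2) hC0 hb2
  refine ⟨1 + 4 * C1 * C' * b ^ 2, by
    have : 0 ≤ 4 * C1 * C' * b ^ 2 := by positivity
    linarith, fun n d r l e hr hl1 hdl hl hlt he hen t₀ ht₀ => ?_⟩
  have hm := gm_exponents n
  have hBP := hr.1
  have hpath := hBP.2.1
  have hr0 := hBP.1
  have hfix := statD hb0 hr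
  have hn0 : (0 : ℝ) < (n : ℝ) + 1 := by positivity
  have hrl : 0 ≤ r l := by
    have := gapn_path_le hpath (Nat.zero_le l) hl.le
    rwa [hr0] at this
  have hrl1 : r (l + 1) ≤ b ^ 2 := (gapn_path_le hpath hl le_rfl).trans hBP.2.2
  obtain ⟨V, hV⟩ : ∃ V, V = r (l + 1) - r l := ⟨_, rfl⟩
  have hV0 : 0 < V := by rw [hV]; linarith
  have hVS : V ≤ b ^ 2 := by rw [hV]; linarith
  have hd0 : 0 ≤ 1 / ((n : ℝ) + 1) := by positivity
  have hd1 : 1 / ((n : ℝ) + 1) ≤ 1 := by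
    rw [div_le_one hn0]
    have : (0 : ℝ) ≤ n := Nat.cast_nonneg n
    linarith
  have hRc := Rb_cont hm hpath hl
  have hMc := Mb_cont hm hpath hl
  have hdn := h3 n d r l hr hl (by omega)
  have hup := h2 n d r l hr hl1 hdl hl
  have hrd := fun t ht => Rb_deriv (t := t) hm hpath hl ht
  have hmd := fun t ht => Mb_deriv (t := t) hm hpath hl ht
  have hm1d := fun t ht => M1b_deriv (t := t) hm hpath hl ht
  have hm2 := fun t ht => M2b_nonneg (t := t) hm hpath hr0 hl ht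
  have hbd := h1 n (gm n) r hm hBP l hl
  have hf0' := Rb_zero hm hpath hl
  have hfV' := Rb_last hm hpath hl
  have hlip := fun s t hs ht hst => luni_lip (s := s) (t := t) hm hpath hl hbd hs ht hst
  rw [← hV] at hRc hMc hdn hup hrd hmd hm1d hm2 hbd hfV' hlip ht₀
  have hfc : ContinuousOn (fun t => Rb n (gm n) r l t - (r l + t) / b ^ 2) (Icc 0 V) :=
    hRc.sub (by fun_prop)
  have hkc : ContinuousOn (fun t => Mb n (gm n) r l t - 1 / b ^ 2) (Icc 0 V) :=
    hMc.sub continuousOn_const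
  have hfd : ∀ t ∈ Ioo 0 V, HasDerivAt (fun t => Rb n (gm n) r l t - (r l + t) / b ^ 2)
      (Mb n (gm n) r l t - 1 / b ^ 2) t := by
    intro t ht
    have e1 : HasDerivAt (fun t : ℝ => (r l + t) / b ^ 2) (1 / b ^ 2) t :=
      ((hasDerivAt_id t).const_add (r l)).div_const _
    exact (hrd t ht).sub e1
  have hkd : ∀ t ∈ Ioo 0 V, HasDerivAt (fun t => Mb n (gm n) r l t - 1 / b ^ 2)
      (M1b n (gm n) r l t) t := fun t ht => (hmd t ht).sub_const _
  have hf0 : Rb n (gm n) r l 0 - (r l + 0) / b ^ 2 = 0 := by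
    rw [hf0', add_zero]
    have := hfix l hl.le
    rw [sub_eq_zero, eq_div_iff hb2.ne']
    linarith
  have hfV : Rb n (gm n) r l V - (r l + V) / b ^ 2 = 0 := by
    have e : r l + V = r (l + 1) := by rw [hV]; ring
    rw [hfV', e]
    have := hfix (l + 1) hl
    rw [sub_eq_zero, eq_div_iff hb2.ne']
    linarith
  have hV2 : 0 ≤ V ^ 2 := sq_nonneg V
  have hint := hblk V (1 / ((n : ℝ) + 1)) (fun t => Rb n (gm n) r l t - (r l + t) / b ^ 2)
    (fun t => Mb n (gm n) r l t - 1 / b ^ 2) (M1b n (gm n) r l) (M2b n (gm n) r l) hV0 hVS hd0 hd1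
    hfc hkc hfd hkd hm1d (fun t ht => hm2 t ⟨ht.1.le, ht.2.le⟩ (by linarith [ht.1]))
    (fun t ht => (hbd t ⟨ht.1.le, ht.2.le⟩).trans (by rw [hCd]; linarith)) hf0 hfV ?_ ?_
  · -- a zero of `k`
    obtain ⟨z, hz, hkz⟩ := exists_hasDerivAt_eq_zero hV0 hfc (by rw [hf0, hfV]) hfd
    have hL : ∀ s ∈ Icc 0 V, ∀ t ∈ Icc 0 V,
        |(Mb n (gm n) r l t - 1 / b ^ 2) - (Mb n (gm n) r l s - 1 / b ^ 2)| ≤ C1 * |t - s| := by
      intro s hs t ht
      have e1 : (Mb n (gm n) r l t - 1 / b ^ 2) - (Mb n (gm n) r l s - 1 / b ^ 2) =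
          Mb n (gm n) r l t - Mb n (gm n) r l s := by ring
      rw [e1]
      rcases le_total s t with h | h
      · rw [abs_of_nonneg (sub_nonneg.2 h)]
        exact hlip s t hs ht h
      · rw [abs_sub_comm, abs_sub_comm t s, abs_of_nonneg (sub_nonneg.2 h)]
        exact hlip t s ht hs h
    have hsq := luni_real (k := fun t => Mb n (gm n) r l t - 1 / b ^ 2) (by linarith) hkc hL
      ⟨z, ⟨hz.1.le, hz.2.le⟩, hkz⟩ hint t₀ ht₀
    have hse : √(1 / ((n : ℝ) + 1)) ≤ e ^ 2 := by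
      refine Real.sqrt_le_iff.2 ⟨by positivity, ?_⟩
      rw [div_le_iff₀ hn0, ← pow_mul]
      exact hen
    have h4 : 4 * C1 * (C' * √(1 / ((n : ℝ) + 1)) * V) ≤ 4 * C1 * C' * b ^ 2 * e ^ 2 := by
      have h5 : C' * √(1 / ((n : ℝ) + 1)) * V ≤ C' * e ^ 2 * b ^ 2 := by
        refine mul_le_mul (mul_le_mul_of_nonneg_left hse (by linarith)) hVS hV0.le ?_
        positivity
      have h6 := mul_le_mul_of_nonneg_left h5 (show 0 ≤ 4 * C1 by linarith)
      refine h6.trans (le_of_eq ?_)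
      ring
    have h7 := hsq.trans h4
    obtain ⟨Y, hY⟩ : ∃ Y, Y = 4 * C1 * C' * b ^ 2 := ⟨_, rfl⟩
    rw [← hY] at h7 ⊢
    have hY0 : 0 ≤ Y := by rw [hY]; positivity
    refine abs_le_of_sq_le_sq ?_ (by positivity)
    refine h7.trans ?_
    rw [mul_pow]
    refine mul_le_mul_of_nonneg_right ?_ (by positivity)
    nlinarith
  · intro t ht
    refine (hup t ht).trans ?_
    have e1 : t ^ 2 ≤ V ^ 2 := pow_le_pow_left₀ ht.1 ht.2 2
    have e2 : C2 / ((n : ℝ) + 1) * t ^ 2 ≤ C2 / ((n : ℝ) + 1) * V ^ 2 :=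
      mul_le_mul_of_nonneg_left e1 (by positivity)
    refine e2.trans ?_
    have e3 : C2 / ((n : ℝ) + 1) * V ^ 2 = C2 * (1 / ((n : ℝ) + 1) * V ^ 2) := by ring
    rw [e3, mul_assoc C]
    refine mul_le_mul_of_nonneg_right ?_ (by positivity)
    rw [hCd]
    linarith
  · intro t ht
    refine le_trans ?_ (hdn t ht)
    rw [neg_le_neg_iff]
    have e1 : (V - t) ^ 2 ≤ V ^ 2 := pow_le_pow_left₀ (by linarith [ht.2]) (by linarith [ht.1]) 2
    have e2 : C3 / ((n : ℝ) + 1) * (V - t) ^ 2 ≤ C3 / ((n : ℝ) + 1) * V ^ 2 :=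
      mul_le_mul_of_nonneg_left e1 (by positivity)
    refine e2.trans ?_
    have e3 : C3 / ((n : ℝ) + 1) * V ^ 2 = C3 * (1 / ((n : ℝ) + 1) * V ^ 2) := by ring
    rw [e3, mul_assoc C]
    refine mul_le_mul_of_nonneg_right ?_ (by positivity)
    rw [hCd]
    linarith

end Vale.Agent.P146.Lb
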