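import Vale.Agent.P146.Lb.LLst0
import Vale.Agent.P146.Lb.LMin
import Vale.Agent.P146.Lb.LUni

/-!
# P146, L1, section LST: the last level is bounded below
-/

open MeasureTheory ProbabilityTheory Filter Topology Set

namespace Vale.Agent.P146.Lb

open Vale.Agent.P157.Par
open Vale.Agent.P146.Gap
open Vale.Agent.P146.Pw2
open Vale.Agent.P367.Cl

/-- The last level of the minimiser over the paths which vanish below `d` is bounded below. -/
theorem lastD {b : ℝ} (hb : 1 < b) : ∃ c : ℝ, 0 < c ∧ ∀ (n d : ℕ) (r : ℕ → ℝ),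
    1 ≤ d → d ≤ n → IsMinD b n d r → 1 ≤ c * (n + 1) → c ≤ r n :=
  lst_of hb (fun h => statD (by linarith) h) (unifD hb)

end Vale.Agent.P146.Lb
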