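import Mathlib

/-!
# P146, L1: real analysis on the first block
-/

open MeasureTheory Set

namespace Vale.Agent.P146.Lb

theorem lreal_le {T a : ℝ} {f f' : ℝ → ℝ} {s : ℝ} (hsT : s ≤ T)
    (hc : ContinuousOn f (Icc s T)) (hd : ∀ t ∈ Ioo s T, HasDerivAt f (f' t) t)
    (h : ∀ t ∈ Ioo s T, f' t ≤ a) : f T ≤ f s + a * (T - s) := by
  have h1 := Convex.image_sub_le_mul_sub_of_deriv_le (convex_Icc s T) hc
    (fun t ht => by
      rw [interior_Icc] at ht
      exact (hd t ht).differentiableAt.differentiableWithinAt)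
    (C := a) (fun t ht => by
      rw [interior_Icc] at ht
      rw [(hd t ht).deriv]
      exact h t ht) s (left_mem_Icc.2 hsT) T (right_mem_Icc.2 hsT) hsT
  linarith

theorem lreal_ge {T a : ℝ} {f f' : ℝ → ℝ} {s : ℝ} (hsT : s ≤ T)
    (hc : ContinuousOn f (Icc s T)) (hd : ∀ t ∈ Ioo s T, HasDerivAt f (f' t) t)
    (h : ∀ t ∈ Ioo s T, a ≤ f' t) : f s + a * (T - s) ≤ f T := by
  have h1 := Convex.mul_sub_le_image_sub_of_le_deriv (convex_Icc s T) hc
    (fun t ht => by
      rw [interior_Icc] at ht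
      exact (hd t ht).differentiableAt.differentiableWithinAt)
    (C := a) (fun t ht => by
      rw [interior_Icc] at ht
      rw [(hd t ht).deriv]
      exact h t ht) s (left_mem_Icc.2 hsT) T (right_mem_Icc.2 hsT) hsT
  linarith

/-- A linear bound of `k = f'` gives a quadratic bound of `f`. -/
theorem lreal_quad {T p q : ℝ} {f k : ℝ → ℝ} (hc : ContinuousOn f (Icc 0 T))
    (hd : ∀ t ∈ Ioo 0 T, HasDerivAt f (k t) t) (h0 : f 0 = 0)
    (h : ∀ t ∈ Ioo 0 T, k t ≤ p - q * t) {t : ℝ} (ht : t ∈ Icc 0 T) :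
    f t ≤ p * t - q * t ^ 2 / 2 := by
  have h1 := lreal_le (f := fun t => f t - (p * t - q * t ^ 2 / 2))
    (f' := fun t => k t - (p - q * t)) (a := 0) ht.1
    ((hc.mono (Icc_subset_Icc_right ht.2)).sub (by fun_prop))
    (fun s hs => ((hd s ⟨hs.1, hs.2.trans_le ht.2⟩).sub (by
      have e1 : HasDerivAt (fun t : ℝ => p * t) p s := by
        simpa using (hasDerivAt_id s).const_mul p
      have e2 : HasDerivAt (fun t : ℝ => q * t ^ 2 / 2) (q * s) s := by
        have := ((hasDerivAt_pow 2 s).const_mul q).div_const 2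
        refine this.congr_deriv ?_
        norm_num
        ring
      exact e1.sub e2)))
    (fun s hs => by
      have := h s ⟨hs.1, hs.2.trans_le ht.2⟩
      linarith)
  simp only [h0] at h1
  linarith

theorem lreal_quad' {T p q : ℝ} {f k : ℝ → ℝ} (hc : ContinuousOn f (Icc 0 T))
    (hd : ∀ t ∈ Ioo 0 T, HasDerivAt f (k t) t) (h0 : f 0 = 0)
    (h : ∀ t ∈ Ioo 0 T, p - q * t ≤ k t) {t : ℝ} (ht : t ∈ Icc 0 T) :
    p * t - q * t ^ 2 / 2 ≤ f t := by
  have h1 := lreal_quad (f := fun t => -f t) (k := fun t => -k t) (p := -p) (q := -q) hc.neg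
    (fun s hs => (hd s hs).neg) (by simp [h0]) (fun s hs => by linarith [h s hs]) ht
  linarith

/-- Step 4: the derivative at `0` of the excess is at least `α x²`. -/
theorem lreal_first {V x c κ h : ℝ} {f k k1 k2 : ℝ → ℝ} (hx : 0 < x) (hc : 0 < c) (hκ : 0 < κ)
    (hκV : κ * x ≤ V) (hf : ContinuousOn f (Icc 0 V)) (hk : ContinuousOn k (Icc 0 V))
    (h1 : ∀ t ∈ Ioo 0 V, HasDerivAt f (k t) t) (h2 : ∀ t ∈ Ioo 0 V, HasDerivAt k (k1 t) t)
    (h3 : ∀ t ∈ Ioo 0 V, HasDerivAt k1 (k2 t) t) (h4 : ∀ t ∈ Ioo 0 V, 0 ≤ k2 t)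
    (h5 : ∀ t ∈ Ioo 0 V, t ≤ κ * x → k1 t ≤ -(c * x)) (hf0 : f 0 = 0) (hfV : f V = 0)
    (h6 : ∀ t ∈ Icc 0 V, -(h * (V - t) ^ 2) ≤ ∫ s in t..V, f s) (hh : 0 ≤ h)
    (h7 : h * V ^ 2 < c * κ ^ 3 * x ^ 4 / 32) : c * κ / 8 * x ^ 2 ≤ k 0 := by
  by_contra hcon
  push Not at hcon
  have hκx : 0 < κ * x := by positivity
  have hV : 0 < V := hκx.trans_le hκV
  have hsub : Icc 0 (κ * x) ⊆ Icc 0 V := Icc_subset_Icc_right hκV
  -- k below a line
  have hkl : ∀ t ∈ Icc 0 (κ * x), k t ≤ c * κ / 8 * x ^ 2 - c * x * t := fun t ht => by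
    have := lreal_le (f := k) (f' := k1) (a := -(c * x)) ht.1
      (hk.mono (Icc_subset_Icc_right (ht.2.trans hκV)))
      (fun s hs => h2 s ⟨hs.1, hs.2.trans_le (ht.2.trans hκV)⟩)
      (fun s hs => h5 s ⟨hs.1, hs.2.trans_le (ht.2.trans hκV)⟩ (hs.2.le.trans ht.2))
    linarith
  have hfl : ∀ t ∈ Icc 0 (κ * x), f t ≤ c * κ / 8 * x ^ 2 * t - c * x * t ^ 2 / 2 := fun t ht =>
    lreal_quad (hf.mono hsub) (fun s hs => h1 s ⟨hs.1, hs.2.trans_le hκV⟩) hf0
      (fun s hs => hkl s ⟨hs.1.le, hs.2.le⟩) ht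
  -- convexity
  have hconv : ConvexOn ℝ (Icc 0 V) k := by
    refine convexOn_of_deriv2_nonneg (convex_Icc 0 V) hk ?_ ?_ ?_
    · rw [interior_Icc]
      exact fun t ht => (h2 t ht).differentiableAt.differentiableWithinAt
    · rw [interior_Icc]
      intro t ht
      have e : deriv k =ᶠ[nhds t] k1 := by
        filter_upwards [isOpen_Ioo.mem_nhds ht] with s hs
        exact (h2 s hs).deriv
      exact ((h3 t ht).differentiableAt.congr_of_eventuallyEq e).differentiableWithinAt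
    · rw [interior_Icc]
      intro t ht
      have e : deriv k =ᶠ[nhds t] k1 := by
        filter_upwards [isOpen_Ioo.mem_nhds ht] with s hs
        exact (h2 s hs).deriv
      show 0 ≤ deriv (deriv k) t
      rw [e.deriv_eq, (h3 t ht).deriv]
      exact h4 t ht
  -- f is negative at κ x, hence nonpositive above
  have hft0 : f (κ * x) < 0 := by
    have := hfl (κ * x) ⟨hκx.le, le_rfl⟩
    have e : c * κ / 8 * x ^ 2 * (κ * x) - c * x * (κ * x) ^ 2 / 2 =
        -(3 / 8 * (c * κ ^ 2 * x ^ 3)) := by ring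
    rw [e] at this
    have : 0 < c * κ ^ 2 * x ^ 3 := by positivity
    linarith
  have hkt0 : k (κ * x) < 0 := by
    have := hkl (κ * x) ⟨hκx.le, le_rfl⟩
    have e : c * κ / 8 * x ^ 2 - c * x * (κ * x) = -(7 / 8 * (c * κ * x ^ 2)) := by ring
    rw [e] at this
    have : 0 < c * κ * x ^ 2 := by positivity
    linarith
  have hneg : ∀ t ∈ Icc (κ * x) V, f t ≤ 0 := by
    intro t2 ht2
    by_contra hpos
    push Not at hpos
    have ht2' : κ * x < t2 := by
      rcases ht2.1.lt_or_eq with h' | h'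
      · exact h'
      · rw [← h'] at hpos
        linarith
    have ht2V : t2 < V := by
      rcases ht2.2.lt_or_eq with h' | h'
      · exact h'
      · rw [h', hfV] at hpos
        exact absurd hpos (lt_irrefl _)
    obtain ⟨t3, ht3, e3⟩ := exists_hasDerivAt_eq_slope f k ht2'
      (hf.mono (Icc_subset_Icc hκx.le ht2.2))
      (fun s hs => h1 s ⟨hκx.trans hs.1, hs.2.trans_le ht2.2⟩)
    obtain ⟨t4, ht4, e4⟩ := exists_hasDerivAt_eq_slope f k ht2V
      (hf.mono (Icc_subset_Icc (hκx.le.trans ht2.1) le_rfl))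
      (fun s hs => h1 s ⟨(hκx.trans ht2').trans hs.1, hs.2⟩)
    have k3 : 0 < k t3 := by
      rw [e3]
      exact div_pos (by linarith) (by linarith)
    have k4 : k t4 < 0 := by
      rw [e4, hfV]
      exact div_neg_of_neg_of_pos (by linarith) (by linarith)
    have hmem : t3 ∈ segment ℝ (κ * x) t4 := by
      rw [segment_eq_Icc (by linarith [ht3.1, ht3.2, ht4.1])]
      exact ⟨ht3.1.le, by linarith [ht3.2, ht4.1]⟩
    have := hconv.le_on_segment (x := κ * x) (y := t4) ⟨hκx.le, hκV⟩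
      ⟨by linarith [ht4.1], ht4.2.le⟩ hmem
    have h9 : max (k (κ * x)) (k t4) < 0 := max_lt hkt0 k4
    linarith
  -- the integral
  have hm : κ * x / 2 ∈ Icc 0 V := ⟨by positivity, by linarith⟩
  have i1 := h6 _ hm
  have hint : IntervalIntegrable f volume (κ * x / 2) (κ * x) :=
    ContinuousOn.intervalIntegrable (by
      rw [uIcc_of_le (by linarith)]
      exact hf.mono (Icc_subset_Icc hm.1 hκV))
  have hint2 : IntervalIntegrable f volume (κ * x) V :=
    ContinuousOn.intervalIntegrable (by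
      rw [uIcc_of_le hκV]
      exact hf.mono (Icc_subset_Icc hκx.le le_rfl))
  rw [← intervalIntegral.integral_add_adjacent_intervals hint hint2] at i1
  have i2 : ∫ s in (κ * x)..V, f s ≤ 0 := by
    have := intervalIntegral.integral_mono_on hκV hint2 intervalIntegrable_const hneg
    simpa using this
  have i3 : ∫ s in (κ * x / 2)..(κ * x), f s ≤ (κ * x / 2) * -(c * κ ^ 2 * x ^ 3 / 16) := by
    have h10 : ∀ t ∈ Icc (κ * x / 2) (κ * x), f t ≤ -(c * κ ^ 2 * x ^ 3 / 16) := fun t ht => by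
      have e1 := hfl t ⟨hm.1.trans ht.1, ht.2⟩
      have e2 : c * κ / 8 * x ^ 2 * t - c * x * t ^ 2 / 2 =
          c * x * t * (κ * x / 8 - t / 2) := by ring
      have e3 : κ * x / 8 - t / 2 ≤ -(κ * x / 8) := by linarith [ht.1]
      have e4 : 0 ≤ c * x * t := mul_nonneg (by positivity) (hm.1.trans ht.1)
      have e5 : c * x * t * (κ * x / 8 - t / 2) ≤ c * x * t * -(κ * x / 8) :=
        mul_le_mul_of_nonneg_left e3 e4
      have e6 : c * x * (κ * x / 2) * (κ * x / 8) ≤ c * x * t * (κ * x / 8) :=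
        mul_le_mul_of_nonneg_right (mul_le_mul_of_nonneg_left ht.1 (by positivity)) (by positivity)
      have e7 : c * x * (κ * x / 2) * (κ * x / 8) = c * κ ^ 2 * x ^ 3 / 16 := by ring
      linarith
    have := intervalIntegral.integral_mono_on (by linarith : κ * x / 2 ≤ κ * x) hint
      intervalIntegrable_const h10
    rw [intervalIntegral.integral_const, smul_eq_mul] at this
    refine this.trans (le_of_eq ?_)
    ring
  have i4 : h * (V - κ * x / 2) ^ 2 ≤ h * V ^ 2 := by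
    refine mul_le_mul_of_nonneg_left ?_ hh
    refine pow_le_pow_left₀ ?_ ?_ 2
    · linarith
    · linarith
  have i5 : (κ * x / 2) * -(c * κ ^ 2 * x ^ 3 / 16) = -(c * κ ^ 3 * x ^ 4 / 32) := by ring
  linarith

/-- Step 4, the integral. -/
theorem lreal_gain {V x A a : ℝ} {f k : ℝ → ℝ} (hx : 0 < x) (ha : 0 < a) (haA : 2 * a ≤ A)
    (haV : a * x ≤ V) (hf : ContinuousOn f (Icc 0 V)) (hk0 : A * x ^ 2 ≤ k 0)
    (hk : ContinuousOn k (Icc 0 V)) {k1 : ℝ → ℝ}
    (h1 : ∀ t ∈ Ioo 0 V, HasDerivAt f (k t) t) (h2 : ∀ t ∈ Ioo 0 V, HasDerivAt k (k1 t) t)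
    (h5 : ∀ t ∈ Ioo 0 V, -(2 * x) ≤ k1 t) (hf0 : f 0 = 0) :
    A * a ^ 2 / 3 * x ^ 4 ≤ ∫ s in (0 : ℝ)..(a * x), f s := by
  have hax : 0 < a * x := by positivity
  have hkl : ∀ t ∈ Icc 0 (a * x), A * x ^ 2 - 2 * x * t ≤ k t := fun t ht => by
    have := lreal_ge (f := k) (f' := k1) (a := -(2 * x)) ht.1
      (hk.mono (Icc_subset_Icc_right (ht.2.trans haV)))
      (fun s hs => h2 s ⟨hs.1, hs.2.trans_le (ht.2.trans haV)⟩)
      (fun s hs => h5 s ⟨hs.1, hs.2.trans_le (ht.2.trans haV)⟩)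
    linarith
  have hfl : ∀ t ∈ Icc 0 (a * x), A * x ^ 2 * t - 2 * x * t ^ 2 / 2 ≤ f t := fun t ht =>
    lreal_quad' (hf.mono (Icc_subset_Icc_right haV)) (fun s hs => h1 s ⟨hs.1, hs.2.trans_le haV⟩)
      hf0 (fun s hs => hkl s ⟨hs.1.le, hs.2.le⟩) ht
  have hint : IntervalIntegrable f volume 0 (a * x) :=
    ContinuousOn.intervalIntegrable (by
      rw [uIcc_of_le hax.le]
      exact hf.mono (Icc_subset_Icc_right haV))
  have hm := intervalIntegral.integral_mono_on hax.le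
    (Continuous.intervalIntegrable (by fun_prop) _ _ :
      IntervalIntegrable (fun t : ℝ => A * x ^ 2 * t - 2 * x * t ^ 2 / 2) volume 0 (a * x))
    hint hfl
  refine le_trans ?_ hm
  have e : ∫ t in (0 : ℝ)..(a * x), (A * x ^ 2 * t - 2 * x * t ^ 2 / 2) =
      A * x ^ 2 * ((a * x) ^ 2 / 2) - x * ((a * x) ^ 3 / 3) := by
    have e1 : ∀ t : ℝ, A * x ^ 2 * t - 2 * x * t ^ 2 / 2 = A * x ^ 2 * t - x * t ^ 2 :=
      fun t => by ring
    simp only [e1]
    rw [intervalIntegral.integral_sub (Continuous.intervalIntegrable (by fun_prop) _ _)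
      (Continuous.intervalIntegrable (by fun_prop) _ _), intervalIntegral.integral_const_mul,
      intervalIntegral.integral_const_mul, integral_id, integral_pow]
    norm_num
  rw [e]
  have e2 : A * x ^ 2 * ((a * x) ^ 2 / 2) - x * ((a * x) ^ 3 / 3) - A * a ^ 2 / 3 * x ^ 4 =
      x ^ 4 * a ^ 2 * (A / 6 - a / 3) := by ring
  have e3 : 0 ≤ x ^ 4 * a ^ 2 * (A / 6 - a / 3) := mul_nonneg (by positivity) (by linarith)
  linarith

end Vale.Agent.P146.Lb
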