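import Vale.Agent.P146.Pw2.T1Split

/-!
# P146, L1: change of the tilt exponent in the first block, quadratic in the time
-/

open MeasureTheory ProbabilityTheory Filter Topology Set

namespace Vale.Agent.P146.Lb

open Vale.Agent.P157.Par
open Vale.Agent.P146.Gap
open Vale.Agent.P146.Pw2

lemma tilt_quad {G M D : ℝ → ℝ} (h : Ec G M D) (y : ℝ) : G y + -(G 0) ≤ |y| ^ 2 := by
  have h0 : ∀ y : ℝ, 0 ≤ y → G y - G 0 ≤ y ^ 2 := fun y hy => by
    have h1 : ∀ x ∈ Icc 0 y, |M x| ≤ y := fun x hx => by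
      have := first_M_le h x
      have h2 : |M x| ≤ |x| := sq_le_sq.1 this
      rw [abs_of_nonneg hx.1] at h2
      exact h2.trans hx.2
    have h3 := (convex_Icc (0 : ℝ) y).norm_image_sub_le_of_norm_hasDerivWithin_le (f := G)
      (f' := M) (C := y) (fun x _ => (h.d1 x).hasDerivWithinAt) h1
      (left_mem_Icc.2 hy) (right_mem_Icc.2 hy)
    rw [sub_zero, Real.norm_eq_abs, Real.norm_eq_abs, abs_of_nonneg hy] at h3
    calc G y - G 0 ≤ |G y - G 0| := le_abs_self _
      _ ≤ y * y := h3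
      _ = y ^ 2 := by ring
  rcases le_total 0 y with hy | hy
  · rw [abs_of_nonneg hy]
    linarith [h0 y hy]
  · rw [abs_of_nonpos hy, ← h.even y]
    linarith [h0 (-y) (by linarith)]

lemma tilt_four_int (c : ℝ) : Integrable (fun z : ℝ => |z| ^ 4 * Real.exp (c * |z|))
    (gaussianReal 0 1) := by
  refine ((heat_int_exp (1 + c)).const_mul 24).mono' (by fun_prop) (ae_of_all _ fun z => ?_)
  rw [Real.norm_eq_abs, abs_of_nonneg (by positivity)]
  have h1 := Real.pow_div_factorial_le_exp (x := |z|) (abs_nonneg z) 4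
  have h2 : ((Nat.factorial 4 : ℕ) : ℝ) = 24 := by norm_num [Nat.factorial]
  rw [h2, div_le_iff₀ (by norm_num)] at h1
  rw [add_mul, one_mul, Real.exp_add]
  calc |z| ^ 4 * Real.exp (c * |z|) ≤ (Real.exp |z| * 24) * Real.exp (c * |z|) :=
        mul_le_mul_of_nonneg_right h1 (Real.exp_pos _).le
    _ = _ := by ring

/-- Change of the tilt exponent, for any two tilts. -/
theorem Rf_tilt4 (S : ℝ) : ∃ K : ℝ, 0 ≤ K ∧ ∀ (C g g₁ g₂ s₁ : ℝ) (F : ℝ → ℝ), Adm C F → 0 < g →
    g ≤ 1 → 0 < g₁ → g₁ ≤ g₂ → g₂ ≤ 1 → s₁ ≤ S → ∀ τ ∈ Icc 0 s₁,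
      Rf g₂ g s₁ F τ ≤ Rf g₁ g s₁ F τ + K * (g₂ - g₁) * τ ^ 2 := by
  refine ⟨∫ z, |z| ^ 4 * Real.exp (√S * |z|) ∂(gaussianReal 0 1), ?_, ?_⟩
  · exact integral_nonneg fun z => by positivity
  intro C g₀ g g' s₁ F h hg₀ hg₀1 hg hgg hg'1 hS τ hτ
  have hg1 : g ≤ 1 := hgg.trans hg'1
  set I := ∫ z, |z| ^ 4 * Real.exp (√S * |z|) ∂(gaussianReal 0 1) with hI
  have hE := first_ec h hg₀ hg₀1 hτ
  set G := gstep g₀ (s₁ - τ) F with hG
  set M := first_f g₀ s₁ F 1 τ with hM
  set D := first_f g₀ s₁ F 2 τ with hD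
  set w : ℝ → ℝ := fun y => G y + -(G 0) with hw
  have hw0 : ∀ y, 0 ≤ w y := fun y => by
    have := first_min hE y
    simp only [hw]; linarith
  have hw1 : ∀ y, w y ≤ |y| := fun y => by
    have := hE.sm.lip y 0
    rw [sub_zero, one_mul] at this
    exact (le_abs_self _).trans this
  have hw2 : ∀ y, w y ≤ |y| ^ 2 := fun y => tilt_quad hE y
  have hwS : Sm 1 1 w M D :=
    ⟨fun x => by simpa [hw] using (hE.d1 x).add_const (-(G 0)), hE.d2, hE.cD, hE.sm.bM, hE.sm.bD⟩
  have hMc : Continuous fun x => M x * M x := hE.sm.cont1.mul hE.sm.cont1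
  have hMb : ∀ x, |M x * M x| ≤ 1 := fun x => by
    rw [abs_mul]
    have := hE.abs_M x
    nlinarith [abs_nonneg (M x)]
  have e : ∀ m : ℝ, tlt m τ G (fun x => M x * M x) 0 = tlt m τ w (fun x => M x * M x) 0 :=
    fun m => (sp5_tlt_add_const m τ (-(G 0)) G (fun x => M x * M x) 0).symm
  rw [first_Rf_eq, first_Rf_eq]
  simp only []
  rw [← hG, ← hM, e, e]
  unfold tlt
  set A' := ∫ z, M (0 + √τ * z) * M (0 + √τ * z) * Real.exp (g' * w (0 + √τ * z))
    ∂(gaussianReal 0 1) with hA'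
  set Z' := ∫ z, Real.exp (g' * w (0 + √τ * z)) ∂(gaussianReal 0 1) with hZ'
  set A := ∫ z, M (0 + √τ * z) * M (0 + √τ * z) * Real.exp (g * w (0 + √τ * z))
    ∂(gaussianReal 0 1) with hA
  set Z := ∫ z, Real.exp (g * w (0 + √τ * z)) ∂(gaussianReal 0 1) with hZ
  have hτ0 : 0 ≤ τ := hτ.1
  have hτS : τ ≤ S := hτ.2.trans hS
  have hZ1 : 1 ≤ Z := by
    have h1 : ∫ _z : ℝ, (1 : ℝ) ∂(gaussianReal 0 1) = 1 := by simp
    rw [← h1, hZ]
    refine integral_mono (integrable_const _) (hwS.integrable_exp g τ 0) fun z => ?_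
    exact Real.one_le_exp (mul_nonneg hg.le (hw0 _))
  have hZZ : Z ≤ Z' := by
    refine integral_mono (hwS.integrable_exp g τ 0) (hwS.integrable_exp g' τ 0) fun z => ?_
    exact Real.exp_le_exp.2 (mul_le_mul_of_nonneg_right hgg (hw0 _))
  have hA'0 : 0 ≤ A' := integral_nonneg fun z => mul_nonneg (mul_self_nonneg _) (Real.exp_pos _).le
  have hAA : A' ≤ A + I * (g' - g) * τ ^ 2 := by
    have h1 : A + I * (g' - g) * τ ^ 2 = ∫ z, (M (0 + √τ * z) * M (0 + √τ * z) *
        Real.exp (g * w (0 + √τ * z)) + ((g' - g) * τ ^ 2) *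
          (|z| ^ 4 * Real.exp (√S * |z|))) ∂(gaussianReal 0 1) := by
      rw [integral_add (hwS.integrable hMc hMb g τ 0) ((tilt_four_int _).const_mul _),
        integral_const_mul]
      ring
    rw [h1, hA']
    refine integral_mono (hwS.integrable hMc hMb g' τ 0)
      ((hwS.integrable hMc hMb g τ 0).add ((tilt_four_int _).const_mul _)) fun z => ?_
    simp only [zero_add]
    set y := √τ * z with hy
    have hη : 0 ≤ g' - g := by linarith
    have k1 : Real.exp (g' * w y) - Real.exp (g * w y) ≤ (g' - g) * |y| ^ 2 * Real.exp |y| := by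
      have k2 : Real.exp (g * w y) = Real.exp (g' * w y) * Real.exp (-((g' - g) * w y)) := by
        rw [← Real.exp_add]; congr 1; ring
      have k3 := Real.add_one_le_exp (-((g' - g) * w y))
      have k4 : Real.exp (g' * w y) ≤ Real.exp |y| := by
        apply Real.exp_le_exp.2
        have := hw0 y
        have := hw1 y
        nlinarith
      have k5 : 0 ≤ (g' - g) * w y := mul_nonneg hη (hw0 y)
      calc Real.exp (g' * w y) - Real.exp (g * w y)
          = Real.exp (g' * w y) * (1 - Real.exp (-((g' - g) * w y))) := by rw [k2]; ring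
        _ ≤ Real.exp (g' * w y) * ((g' - g) * w y) :=
            mul_le_mul_of_nonneg_left (by linarith) (Real.exp_pos _).le
        _ ≤ Real.exp |y| * ((g' - g) * |y| ^ 2) :=
            mul_le_mul k4 (mul_le_mul_of_nonneg_left (hw2 y) hη) k5 (Real.exp_pos _).le
        _ = _ := by ring
    have k6 : M y * M y ≤ y ^ 2 := by rw [← sq]; exact first_M_le hE y
    have k7 : |y| = √τ * |z| := by rw [hy, abs_mul, abs_of_nonneg (Real.sqrt_nonneg τ)]
    have k8 : √τ ≤ √S := Real.sqrt_le_sqrt hτS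
    have k9 : (g' - g) * |y| ^ 4 * Real.exp |y| ≤
        (g' - g) * τ ^ 2 * (|z| ^ 4 * Real.exp (√S * |z|)) := by
      have j1 : Real.exp |y| ≤ Real.exp (√S * |z|) := by
        rw [k7]
        exact Real.exp_le_exp.2 (mul_le_mul_of_nonneg_right k8 (abs_nonneg _))
      have j2 : |y| ^ 4 = τ ^ 2 * |z| ^ 4 := by
        rw [k7, mul_pow, show (4 : ℕ) = 2 * 2 by rfl, pow_mul, Real.sq_sqrt hτ0]
      calc (g' - g) * |y| ^ 4 * Real.exp |y|
          ≤ (g' - g) * (τ ^ 2 * |z| ^ 4) * Real.exp (√S * |z|) := by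
            rw [j2]
            exact mul_le_mul_of_nonneg_left j1 (by positivity)
        _ = _ := by ring
    have k10 : M y * M y * (Real.exp (g' * w y) - Real.exp (g * w y)) ≤
        (g' - g) * |y| ^ 4 * Real.exp |y| := by
      have j3 : 0 ≤ Real.exp (g' * w y) - Real.exp (g * w y) := by
        have := Real.exp_le_exp.2 (mul_le_mul_of_nonneg_right hgg (hw0 y))
        linarith
      calc M y * M y * (Real.exp (g' * w y) - Real.exp (g * w y))
          ≤ y ^ 2 * ((g' - g) * |y| ^ 2 * Real.exp |y|) :=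
            mul_le_mul k6 k1 j3 (sq_nonneg _)
        _ = _ := by rw [← sq_abs]; ring
    linarith
  have hZ0 : 0 < Z := by linarith
  have hr : 0 ≤ I * (g' - g) * τ ^ 2 := by
    have : 0 ≤ I := integral_nonneg fun z => by positivity
    have : 0 ≤ g' - g := by linarith
    positivity
  calc A' / Z' ≤ A' / Z := div_le_div_of_nonneg_left hA'0 hZ0 hZZ
    _ ≤ (A + I * (g' - g) * τ ^ 2) / Z := div_le_div_of_nonneg_right hAA hZ0.le
    _ = A / Z + I * (g' - g) * τ ^ 2 / Z := add_div _ _ _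
    _ ≤ A / Z + I * (g' - g) * τ ^ 2 := by
        have := div_le_self hr hZ1
        linarith

end Vale.Agent.P146.Lb
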