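import Vale.Agent.P146.Lb.LMin
import Vale.Agent.P146.Lb.LVdn
import Vale.Agent.P146.Lb.LUni
import Vale.Agent.P146.Lb.LLst
import Vale.Agent.P146.Lb.LDec
import Vale.Agent.P146.Lb.LTilt
import Vale.Agent.P146.Lb.LReal
import Vale.Agent.P146.Pw2.T1Grid

/-!
# P146, L1: the first block of the constrained minimiser is long, and its first variation is large
-/

open MeasureTheory ProbabilityTheory Filter Topology Set

namespace Vale.Agent.P146.Lb

open Vale.Agent.P157.Par
open Vale.Agent.P146.Gap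
open Vale.Agent.P146.Pw2
open Vale.Agent.P367.Cl

theorem len_gm_mono {n i j : ℕ} (h : i ≤ j) : gm n i ≤ gm n j := grid_gm_mono h

theorem len_mono {b : ℝ} {n : ℕ} {r : ℕ → ℝ} (hr : BPath b n r) {i j : ℕ} (hij : i ≤ j)
    (hj : j ≤ n) : r i ≤ r j := minb_mono hr.2.1.2 hij hj

theorem len_nonneg {b : ℝ} {n : ℕ} {r : ℕ → ℝ} (hr : BPath b n r) {i : ℕ} (hi : i ≤ n) :
    0 ≤ r i := by
  have := len_mono hr (Nat.zero_le i) hi
  rwa [hr.1] at this

/-- a small quantity `e` with `e⁴ (n + 1) = 1`, below `√(x)`-powers -/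
theorem len_e {A x : ℝ} {n : ℕ} (hA : 0 < A) (h : A ^ 4 ≤ x ^ 8 * (n + 1)) :
    ∃ e : ℝ, 0 < e ∧ 1 ≤ e ^ 4 * (n + 1) ∧ A * e ≤ x ^ 2 := by
  have hn : (0 : ℝ) < n + 1 := by positivity
  refine ⟨√(√(1 / (n + 1))), by positivity, ?_, ?_⟩
  · have e1 : √(√(1 / ((n : ℝ) + 1))) ^ 4 = 1 / (n + 1) := by
      rw [show (4 : ℕ) = 2 * 2 by rfl, pow_mul, Real.sq_sqrt (Real.sqrt_nonneg _),
        Real.sq_sqrt (by positivity)]
    rw [e1]
    field_simp
    exact le_rfl
  · have e1 : √(√(1 / ((n : ℝ) + 1))) ^ 4 = 1 / (n + 1) := by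
      rw [show (4 : ℕ) = 2 * 2 by rfl, pow_mul, Real.sq_sqrt (Real.sqrt_nonneg _),
        Real.sq_sqrt (by positivity)]
    refine (pow_le_pow_iff_left₀ (by positivity) (by positivity) (four_ne_zero)).1 ?_
    rw [mul_pow, e1, ← pow_mul, mul_one_div, div_le_iff₀ hn]
    exact h

/-- `M` decreases on the blocks `l ≥ d - 1` below the time `κ x`. -/
theorem len_dec {b c K : ℝ} {n d : ℕ} {r : ℕ → ℝ} (hc : 0 < c) (hK : 1 ≤ K)
    (hdec : ∀ (n : ℕ) (r : ℕ → ℝ), BPath b n r →
    ∀ l < n, ∀ t ∈ Icc 0 (r (l + 1) - r l), r l + t ≤ c →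
      M1b n (gm n) r l t ≤ K * (r l + t) - c * gm n (l + 1)) (hr : BPath b n r)
    (hx1 : gm n d ≤ 1) {l : ℕ} (hl : l < n) (hdl : d ≤ l + 1) {T : ℝ}
    (hT : T ∈ Icc 0 (r (l + 1) - r l)) (hW : r l + T ≤ c / (2 * K) * gm n d) :
    Mb n (gm n) r l T ≤ Mb n (gm n) r l 0 - c / 2 * gm n d * T := by
  have hm := gm_exponents n
  have hx0 : 0 ≤ gm n d := grid_gm_nonneg n d
  have h1 := lreal_le (f := Mb n (gm n) r l) (f' := M1b n (gm n) r l) (a := -(c / 2 * gm n d))
    hT.1 ((Mb_cont hm hr.2.1 hl).mono (Icc_subset_Icc_right hT.2))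
    (fun s hs => Mb_deriv hm hr.2.1 hl ⟨hs.1, hs.2.trans_le hT.2⟩)
    (fun s hs => by
      have h2 : c / (2 * K) * gm n d ≤ c := by
        have e1 : c / (2 * K) ≤ c := by
          rw [div_le_iff₀ (by positivity)]
          nlinarith
        calc c / (2 * K) * gm n d ≤ c * 1 := mul_le_mul e1 hx1 hx0 hc.le
          _ = c := mul_one c
      have h3 := hdec n r hr l hl s ⟨hs.1.le, (hs.2.trans_le hT.2).le⟩ (by linarith [hs.2])
      have h4 : K * (r l + s) ≤ K * (c / (2 * K) * gm n d) :=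
        mul_le_mul_of_nonneg_left (by linarith [hs.2]) (by linarith)
      have h5 : K * (c / (2 * K) * gm n d) = c / 2 * gm n d := by
        field_simp
      have h6 : gm n d ≤ gm n (l + 1) := len_gm_mono hdl
      have h7 : c * gm n d ≤ c * gm n (l + 1) := mul_le_mul_of_nonneg_left h6 hc.le
      linarith)
  linarith

theorem lenD {b : ℝ} (hb : 1 < b) : ∃ c C : ℝ, 0 < c ∧ 1 ≤ C ∧ ∀ (n d : ℕ) (r : ℕ → ℝ),
    1 ≤ d → d ≤ n → IsMinD b n d r → gm n d ≤ c → C ≤ gm n d ^ 8 * (n + 1) →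
      c * gm n d ≤ r d := by
  obtain ⟨Cu, hCu, hun⟩ := unifD hb
  obtain ⟨cl, hcl, hlast⟩ := lastD hb
  obtain ⟨cd, K, hcd, hK, hdec⟩ := decD b
  set κ := cd / (2 * K) with hκ
  have hκ0 : 0 < κ := by positivity
  set A := 16 * Cu / (cd * κ) with hA
  have hA0 : 0 < A := by positivity
  refine ⟨min (min (κ / 2) (cl / (2 * κ))) 1, max (max (A ^ 4) (1 / cl)) 1, by positivity,
    le_max_right _ _, fun n d r hd1 hdn hmin hx hC => ?_⟩
  set x := gm n d with hxdef
  have hx0 : 0 < x := grid_gm_pos hd1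
  have hx1 : x ≤ 1 := hx.trans (min_le_right _ _)
  have hxl : x ≤ cl / (2 * κ) := hx.trans ((min_le_left _ _).trans (min_le_right _ _))
  have hr := hmin.1
  have hm := gm_exponents n
  have hn1 : (0 : ℝ) < n + 1 := by positivity
  obtain ⟨e, he, hen, hAe⟩ := len_e (n := n) hA0
    ((le_max_left _ _).trans ((le_max_left _ _).trans hC))
  -- r n is not small
  have hrn : cl ≤ r n := by
    refine hlast n d r hd1 hdn hmin ?_
    have h1 : 1 / cl ≤ x ^ 8 * (n + 1) := (le_max_right _ _).trans ((le_max_left _ _).trans hC)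
    have h2 : x ^ 8 * ((n : ℝ) + 1) ≤ 1 * (n + 1) :=
      mul_le_mul_of_nonneg_right (pow_le_one₀ hx0.le hx1) hn1.le
    rw [div_le_iff₀ hcl] at h1
    nlinarith
  by_contra hcon
  push Not at hcon
  have hrd : r d < κ / 2 * x := by
    refine hcon.trans_le (mul_le_mul_of_nonneg_right ?_ hx0.le)
    exact (min_le_left _ _).trans (min_le_left _ _)
  have hκx : 0 < κ * x := by positivity
  have hWn : κ * x < r n := by
    have h1 : κ * x ≤ κ * (cl / (2 * κ)) := mul_le_mul_of_nonneg_left hxl hκ0.le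
    have h2 : κ * (cl / (2 * κ)) = cl / 2 := by field_simp
    linarith
  -- the first level after which the path leaves r d
  have hex : ∃ l, d ≤ l ∧ r d < r (l + 1) := by
    refine ⟨n - 1, ?_, ?_⟩
    · rcases Nat.lt_or_ge d n with h | h
      · omega
      · have : d = n := by omega
        rw [this] at hrd
        linarith
    · have e : n - 1 + 1 = n := by omega
      rw [e]
      linarith
  classical
  set l1 := Nat.find hex with hl1
  obtain ⟨hdl1, hl1r⟩ := Nat.find_spec hex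
  have hl1n : l1 < n := by
    have h1 : l1 ≤ n - 1 := by
      refine Nat.find_min' hex ⟨?_, ?_⟩
      · rcases Nat.lt_or_ge d n with h | h
        · omega
        · have : d = n := by omega
          rw [this] at hrd
          linarith
      · have e : n - 1 + 1 = n := by omega
        rw [e]
        linarith
    omega
  have hr1 : r l1 = r d := by
    refine le_antisymm ?_ (len_mono hr hdl1 hl1n.le)
    by_contra h
    push Not at h
    have hne : l1 ≠ d := fun h' => by rw [h'] at h; exact lt_irrefl _ h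
    have h1 := Nat.find_min hex (m := l1 - 1) (by omega)
    apply h1
    refine ⟨by omega, ?_⟩
    have e : l1 - 1 + 1 = l1 := by omega
    rw [e]
    exact h
  -- the last level below the time κ x
  set l2 := Nat.findGreatest (fun l => r l ≤ κ * x) n with hl2
  have hl2W : r l2 ≤ κ * x := by
    have := Nat.findGreatest_spec (P := fun l => r l ≤ κ * x) (m := l1) (n := n) hl1n.le
      (by rw [hr1]; linarith)
    exact this
  have hl12 : l1 ≤ l2 := Nat.le_findGreatest hl1n.le (by rw [hr1]; linarith)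
  have hl2n : l2 < n := by
    rcases (Nat.findGreatest_le (P := fun l => r l ≤ κ * x) n).lt_or_eq with h | h
    · exact h
    · rw [← hl2] at h
      rw [h] at hl2W
      linarith
  have hl2r : κ * x < r (l2 + 1) := by
    by_contra h
    push Not at h
    have := Nat.le_findGreatest (P := fun l => r l ≤ κ * x) (m := l2 + 1) (n := n) hl2n h
    omega
  -- induction
  have hind : ∀ i, l1 + i ≤ l2 → Ml n (gm n) r (l1 + i) ≤
      Ml n (gm n) r l1 - cd / 2 * x * (r (l1 + i) - r l1) := by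
    intro i
    induction i with
    | zero => intro _; simp
    | succ i ih =>
      intro hi
      have h1 := ih (by omega)
      have hli : l1 + i < n := by omega
      have h2 : r (l1 + i) ≤ r (l1 + i + 1) := len_mono hr (Nat.le_succ _) (by omega)
      have h3 : r (l1 + i + 1) ≤ r l2 := len_mono hr hi hl2n.le
      have h4 := len_dec hcd hK hdec hr hx1 hli (by omega)
        (T := r (l1 + i + 1) - r (l1 + i)) ⟨by linarith, le_rfl⟩ (by
          rw [← hκ]
          linarith)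
      rw [Mb_last hm hr.2.1 hli, Mb_zero hm hr.2.1 hli] at h4
      have e : l1 + (i + 1) = l1 + i + 1 := rfl
      rw [e]
      linarith
  have h5 := hind (l2 - l1) (by omega)
  rw [Nat.add_sub_cancel' hl12] at h5
  -- inside the block l2
  have hT : κ * x - r l2 ∈ Icc 0 (r (l2 + 1) - r l2) := ⟨by linarith, by linarith⟩
  have h6 := len_dec hcd hK hdec hr hx1 hl2n (by omega) hT (by rw [← hκ]; linarith)
  rw [Mb_zero hm hr.2.1 hl2n] at h6
  have h7 := hun n d r l2 e hmin (by omega) (by omega) hl2n (by linarith) he hen _ hT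
  have h8 := hun n d r l1 e hmin (by omega) (by omega) hl1n (by rw [hr1]; exact hl1r) he hen 0
    ⟨le_rfl, by rw [hr1]; linarith⟩
  rw [Mb_zero hm hr.2.1 hl1n] at h8
  have h9 := (abs_le.1 h7).1
  have h10 := (abs_le.1 h8).2
  rw [hr1] at h5
  have h11 : cd / 2 * x * (κ * x - r d) ≤ 2 * (Cu * e) := by nlinarith
  have h12 : cd / 2 * x * (κ / 2 * x) ≤ cd / 2 * x * (κ * x - r d) :=
    mul_le_mul_of_nonneg_left (by linarith) (by positivity)
  have h13 : A * e * (cd * κ) = 16 * (Cu * e) := by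
    rw [hA]
    field_simp
  have h14 : A * e * (cd * κ) ≤ x ^ 2 * (cd * κ) := mul_le_mul_of_nonneg_right hAe (by positivity)
  have h15 : cd / 2 * x * (κ / 2 * x) = x ^ 2 * (cd * κ) / 4 := by ring
  have h16 : 0 < Cu * e := by positivity
  nlinarith

theorem gainD {b : ℝ} (hb : 1 < b) : ∃ a c C : ℝ, 0 < a ∧ 0 < c ∧ 1 ≤ C ∧
    ∀ (n d : ℕ) (r : ℕ → ℝ), IsMinD b n (d + 1) r → d < n → gm n (d + 1) ≤ c →
      C ≤ gm n (d + 1) ^ 8 * (n + 1) → a * gm n (d + 1) ≤ r (d + 1) ∧
      c * gm n (d + 1) ^ 4 ≤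
        ∫ s in (0 : ℝ)..(a * gm n (d + 1)), (Rb n (gm n) r d s - s / b ^ 2) := by
  obtain ⟨c₁, C₁, hc₁, hC₁, hlen⟩ := lenD hb
  obtain ⟨Cv, hCv, hvar⟩ := var_downD hb
  obtain ⟨cd, K, hcd, hK, hdec⟩ := decD b
  have hb2 : 0 < b ^ 2 := by positivity
  set κ := min c₁ (cd / (2 * K)) with hκ
  have hκ0 : 0 < κ := by positivity
  set c₂ := cd / 2 with hc₂
  have hc₂0 : 0 < c₂ := by positivity
  set α := c₂ * κ / 8 with hα
  have hα0 : 0 < α := by positivity
  set a := min (α / 2) κ with ha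
  have ha0 : 0 < a := by positivity
  set D := 64 * Cv * b ^ 4 / (c₂ * κ ^ 3) with hD
  have hD0 : 0 < D := by positivity
  refine ⟨a, min (min c₁ (α * a ^ 2 / 3)) 1, max C₁ D, ha0, by positivity,
    le_max_of_le_left hC₁, fun n d r hmin hdn hx hC => ?_⟩
  set x := gm n (d + 1) with hxdef
  have hx0 : 0 < x := grid_gm_pos (by omega)
  have hx1 : x ≤ 1 := hx.trans (min_le_right _ _)
  have hr := hmin.1
  have hm := gm_exponents n
  have hn1 : (0 : ℝ) < n + 1 := by positivity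
  have hV := hlen n (d + 1) r (by omega) hdn hmin (hx.trans ((min_le_left _ _).trans
    (min_le_left _ _))) ((le_max_left _ _).trans hC)
  have hrd : r d = 0 := hmin.2.1 d (Nat.lt_succ_self d)
  set V := r (d + 1) with hVdef
  have hκV : κ * x ≤ V := (mul_le_mul_of_nonneg_right (min_le_left _ _) hx0.le).trans hV
  have haV : a * x ≤ V := (mul_le_mul_of_nonneg_right (min_le_right _ _) hx0.le).trans hκV
  have hVb : V ≤ b ^ 2 := (len_mono hr hdn le_rfl).trans hr.2.2
  have hV0 : 0 < V := (by positivity : 0 < κ * x).trans_le hκV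
  have eV : r (d + 1) - r d = V := by rw [hrd, sub_zero]
  refine ⟨haV, ?_⟩
  -- data
  have hfc : ContinuousOn (fun s => Rb n (gm n) r d s - s / b ^ 2) (Icc 0 V) := by
    have := Rb_cont hm hr.2.1 hdn
    rw [eV] at this
    exact this.sub (by fun_prop)
  have hkc : ContinuousOn (fun s => Mb n (gm n) r d s - 1 / b ^ 2) (Icc 0 V) := by
    have := Mb_cont hm hr.2.1 hdn
    rw [eV] at this
    exact this.sub (by fun_prop)
  have h1 : ∀ t ∈ Ioo 0 V, HasDerivAt (fun s => Rb n (gm n) r d s - s / b ^ 2)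
      (Mb n (gm n) r d t - 1 / b ^ 2) t := fun t ht =>
    (Rb_deriv hm hr.2.1 hdn (by rw [eV]; exact ht)).sub ((hasDerivAt_id t).div_const _)
  have h2 : ∀ t ∈ Ioo 0 V, HasDerivAt (fun s => Mb n (gm n) r d s - 1 / b ^ 2)
      (M1b n (gm n) r d t) t := fun t ht =>
    (Mb_deriv hm hr.2.1 hdn (by rw [eV]; exact ht)).sub_const _
  have h3 : ∀ t ∈ Ioo 0 V, HasDerivAt (M1b n (gm n) r d) (M2b n (gm n) r d t) t := fun t ht =>
    M1b_deriv hm hr.2.1 hdn (by rw [eV]; exact ht)
  have h4 : ∀ t ∈ Ioo 0 V, 0 ≤ M2b n (gm n) r d t := fun t ht =>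
    M2b_nonneg hm hr.2.1 hr.1 hdn (by rw [eV]; exact ⟨ht.1.le, ht.2.le⟩)
      (by rw [hrd]; linarith [ht.1])
  have h5 : ∀ t ∈ Ioo 0 V, t ≤ κ * x → M1b n (gm n) r d t ≤ -(c₂ * x) := fun t ht htx => by
    have e1 : κ * x ≤ cd / (2 * K) * x := mul_le_mul_of_nonneg_right (min_le_right _ _) hx0.le
    have e2 : cd / (2 * K) * x ≤ cd := by
      have e3 : cd / (2 * K) ≤ cd := by
        rw [div_le_iff₀ (by positivity)]
        nlinarith
      calc cd / (2 * K) * x ≤ cd * 1 := mul_le_mul e3 hx1 hx0.le hcd.le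
        _ = cd := mul_one cd
    have e4 := hdec n r hr d hdn t (by rw [eV]; exact ⟨ht.1.le, ht.2.le⟩)
      (by rw [hrd]; linarith)
    rw [hrd, zero_add, ← hxdef] at e4
    have e5 : K * t ≤ K * (cd / (2 * K) * x) :=
      mul_le_mul_of_nonneg_left (by linarith) (by linarith)
    have e6 : K * (cd / (2 * K) * x) = cd / 2 * x := by field_simp
    rw [hc₂]
    linarith
  have hf0 : Rb n (gm n) r d 0 - 0 / b ^ 2 = 0 := by
    rw [Rb_zero hm hr.2.1 hdn, spR_zero hm hr.2.1 hr.1 hdn.le hrd]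
    simp
  have hst := statD (by linarith) hmin (d + 1) hdn
  have hfV : Rb n (gm n) r d V - V / b ^ 2 = 0 := by
    have e1 := Rb_last hm hr.2.1 hdn
    rw [eV] at e1
    rw [e1, hVdef, hst]
    field_simp
    simp
  have h6 : ∀ t ∈ Icc 0 V, -(Cv / (n + 1) * (V - t) ^ 2) ≤
      ∫ s in t..V, (Rb n (gm n) r d s - s / b ^ 2) := fun t ht => by
    have := hvar n (d + 1) r d hmin hdn le_rfl t (by rw [eV]; exact ht)
    rw [eV] at this
    simpa only [hrd, zero_add] using this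
  have h5' : ∀ t ∈ Ioo 0 V, -(2 * x) ≤ M1b n (gm n) r d t := fun t ht =>
    M1b_low hm hr.2.1 hdn (by rw [eV]; exact ⟨ht.1.le, ht.2.le⟩)
  have h7 : Cv / (n + 1) * V ^ 2 < c₂ * κ ^ 3 * x ^ 4 / 32 := by
    have e1 : D ≤ x ^ 8 * (n + 1) := (le_max_right _ _).trans hC
    have e2 : x ^ 8 * ((n : ℝ) + 1) ≤ x ^ 4 * (n + 1) := by
      refine mul_le_mul_of_nonneg_right ?_ hn1.le
      exact pow_le_pow_of_le_one hx0.le hx1 (by norm_num)
    have e3 : D ≤ x ^ 4 * (n + 1) := e1.trans e2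
    rw [hD, div_le_iff₀ (by positivity)] at e3
    have e4 : V ^ 2 ≤ b ^ 4 := by
      calc V ^ 2 ≤ (b ^ 2) ^ 2 := pow_le_pow_left₀ hV0.le hVb 2
        _ = b ^ 4 := by ring
    have e5 : Cv / (n + 1) * V ^ 2 ≤ Cv / (n + 1) * b ^ 4 :=
      mul_le_mul_of_nonneg_left e4 (by positivity)
    refine e5.trans_lt ?_
    rw [div_mul_eq_mul_div, div_lt_iff₀ hn1]
    have e6 : 0 < Cv * b ^ 4 := by positivity
    nlinarith
  have hk0 := lreal_first hx0 hc₂0 hκ0 hκV hfc hkc h1 h2 h3 h4 h5 hf0 hfV h6 (by positivity) h7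
  have hg := lreal_gain (A := α) hx0 ha0 (by
      have : a ≤ α / 2 := min_le_left _ _
      linarith) haV hfc hk0 hkc h1 h2 h5' hf0
  refine le_trans (mul_le_mul_of_nonneg_right ?_ (by positivity)) hg
  exact (min_le_left _ _).trans (min_le_right _ _)

end Vale.Agent.P146.Lb
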