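import Vale.Agent.P146.Lb.LDefs

/-!
# P146, L1, the last level: a lower bound of `r n`

`lst_of` proves `lastD` (the next file) from the statements of `statD` and `unifD`.
-/

open MeasureTheory ProbabilityTheory Filter Topology Set

namespace Vale.Agent.P146.Lb

open Vale.Agent.P157.Par
open Vale.Agent.P146.Gap
open Vale.Agent.P146.Pw2
open Vale.Agent.P367.Cl

/-- The functional at the path with only the last level raised. -/
lemma lst_SKr {b : ℝ} {n : ℕ} (hn : 1 ≤ n) {m : ℕ → ℝ} (hm : Exponents n m) (t : ℝ) :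
    SKr b n m (fun l => if l < n then 0 else t) =
      gstep (m n) t lc 0 - t / 2 + b ^ 2 / 4 + (1 - m n) * t ^ 2 / (4 * b ^ 2) := by
  obtain ⟨-, e0, -⟩ := minb_exp hm
  have hn0 : 0 < n := hn
  have h1 : ∑ l ∈ Finset.range (n + 1), (m (l + 1) - m l) * (if l < n then (0 : ℝ) else t) ^ 2 =
      (1 - m n) * t ^ 2 := by
    rw [Finset.sum_range_succ, Finset.sum_eq_zero, if_neg (lt_irrefl n), hm.2.1, zero_add]
    intro l hl
    rw [if_pos (Finset.mem_range.1 hl)]
    ring
  unfold SKr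
  rw [minb_spin (by simp [hn0]), minb_block hn (fun l h1 h2 => (e0 l h1 (by omega)).ne')
    (fun l hl => by simp [hl, hn0]), h1]
  simp [hn0]

/-- The case `r n = 0`. -/
lemma lst_zero {b : ℝ} (hb : 1 < b) : ∃ K : ℝ, 0 ≤ K ∧ ∀ (n d : ℕ) (r : ℕ → ℝ),
    1 ≤ d → d ≤ n → IsMinD b n d r → r n = 0 → 1 ≤ 1 / b ^ 2 + K * (1 / (n + 1)) := by
  have hb0 : 0 < b := by linarith
  have hb2 : 0 < b ^ 2 := by positivity
  obtain ⟨K, hK, htilt⟩ := Rf_tilt2 (b ^ 2)
  refine ⟨K, hK, fun n d r hd hdn h hrn => ?_⟩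
  obtain ⟨hr, -, hmin⟩ := h
  have hm := gm_exponents n
  obtain ⟨emono, e0, e1⟩ := minb_exp hm
  have hn : 1 ≤ n := hd.trans hdn
  have hg0 : 0 < gm n n := e0 n hn (by omega)
  have hg1 : gm n n < 1 := by
    rw [← hm.2.1]
    exact hm.2.2 n le_rfl
  have hr0 : ∀ l ≤ n, r l = (fun l => if l < n then (0 : ℝ) else 0) l := by
    intro l hl
    have h1 := gapn_path_le hr.2.1 (Nat.zero_le l) hl
    have h2 := gapn_path_le hr.2.1 hl le_rfl
    rw [hr.1] at h1
    rw [hrn] at h2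
    simp only [ite_self]
    linarith
  have hlc0 : lc 0 = 0 := by simp [lc]
  have h1 : ∀ t ∈ Ioc 0 (b ^ 2), gstep 1 (b ^ 2) lc 0 ≤
      gstep (gm n n) t (gstep 1 (b ^ 2 - t) lc) 0 + (1 - gm n n) * t ^ 2 / (4 * b ^ 2) := by
    intro t ht
    have hP : BPath b n (fun l => if l < n then 0 else t) := by
      refine ⟨by simp [show 0 < n from hn], ⟨?_, fun l hl => ?_⟩, ?_⟩
      · simp [show 0 < n from hn]
      · simp only [if_pos hl]
        split_ifs
        · exact le_rfl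
        · exact ht.1.le
      · simp only [lt_irrefl, if_false]
        exact ht.2
    have h2 := hmin _ hP (fun l hl => by simp [show l < n by omega])
    rw [minb_SKr_congr hr0, lst_SKr hn hm, lst_SKr hn hm, gstep_zero hg0.ne', hlc0] at h2
    rw [minb_lc_step hb2.le, minb_lc_step (sub_nonneg.2 ht.2), minb_gstep_const adm_lc hg0]
    simp only [hlc0]
    have h3 : (1 - gm n n) * (0 : ℝ) ^ 2 / (4 * b ^ 2) = 0 := by ring
    rw [h3] at h2
    linarith
  have h2 := split_A hb0 htilt adm_lc hg0 hg1 le_rfl hb2 le_rfl h1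
  have h3 : iteratedDeriv 2 (gstep 1 (b ^ 2) lc) 0 = 1 := by
    rw [minb_lc_step hb2.le]
    have h4 : deriv (fun x => lc x + b ^ 2 / 2) = deriv lc := funext fun y => deriv_add_const _
    have h5 : ∀ f : ℝ → ℝ, iteratedDeriv 2 f = iteratedDeriv 1 (deriv f) := fun f =>
      iteratedDeriv_succ'
    rw [h5, h4, ← h5, adm_lc_it2]
    simp
  have h4 := gm_sub n n
  rw [hm.2.1] at h4
  rw [h3, h4] at h2
  linarith

/-- The last level from the stationarity and the uniform estimate. -/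
theorem lst_of {b : ℝ} (hb : 1 < b)
    (hstat : ∀ {n d : ℕ} {r : ℕ → ℝ}, IsMinD b n d r → ∀ l ≤ n, r l = b ^ 2 * spR n (gm n) r l)
    (hunif : ∃ C : ℝ, 1 ≤ C ∧ ∀ (n d : ℕ) (r : ℕ → ℝ) (l : ℕ) (e : ℝ),
      IsMinD b n d r → 1 ≤ l → d ≤ l → l < n → r l < r (l + 1) → 0 < e → 1 ≤ e ^ 4 * (n + 1) →
        ∀ t ∈ Icc 0 (r (l + 1) - r l), |Mb n (gm n) r l t - 1 / b ^ 2| ≤ C * e) :
    ∃ c : ℝ, 0 < c ∧ ∀ (n d : ℕ) (r : ℕ → ℝ),
      1 ≤ d → d ≤ n → IsMinD b n d r → 1 ≤ c * (n + 1) → c ≤ r n := by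
  classical
  have hb0 : 0 < b := by linarith
  have hb2 : 0 < b ^ 2 := by positivity
  have hb21 : 1 < b ^ 2 := by nlinarith
  obtain ⟨C1, hC1, h1⟩ := hunif
  obtain ⟨C2, hC2, h2⟩ := M1b_bd b
  obtain ⟨K, hK, h3⟩ := lst_zero hb
  have H := sumHyp hb
  obtain ⟨a, ha⟩ : ∃ a : ℝ, a = 1 - 1 / b ^ 2 := ⟨_, rfl⟩
  have hq0 : 0 < 1 / b ^ 2 := by positivity
  have hq1 : 1 / b ^ 2 < 1 := by
    rw [div_lt_one hb2]
    exact hb21
  have ha0 : 0 < a := by rw [ha]; linarith
  obtain ⟨e, he⟩ : ∃ e : ℝ, e = a / (2 * C1) := ⟨_, rfl⟩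
  have he0 : 0 < e := by rw [he]; exact div_pos ha0 (by linarith)
  have hCe : C1 * e = a / 2 := by
    rw [he]
    field_simp
  obtain ⟨c, hc⟩ : ∃ c : ℝ, c = min (min (b ^ 2 * a / 4) (a / (C2 + 2 * (1 / b ^ 2))))
    (min (e ^ 4) (a / (2 * (K + 1)))) := ⟨_, rfl⟩
  have c1 : c ≤ b ^ 2 * a / 4 := by
    rw [hc]
    exact (min_le_left _ _).trans (min_le_left _ _)
  have c2 : c ≤ a / (C2 + 2 * (1 / b ^ 2)) := by
    rw [hc]
    exact (min_le_left _ _).trans (min_le_right _ _)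
  have c3 : c ≤ e ^ 4 := by
    rw [hc]
    exact (min_le_right _ _).trans (min_le_left _ _)
  have c4 : c ≤ a / (2 * (K + 1)) := by
    rw [hc]
    exact (min_le_right _ _).trans (min_le_right _ _)
  have hc0 : 0 < c := by
    rw [hc]
    refine lt_min (lt_min ?_ ?_) (lt_min ?_ ?_)
    · positivity
    · exact div_pos ha0 (by linarith)
    · positivity
    · exact div_pos ha0 (by linarith)
  refine ⟨c, hc0, fun n d r hd hdn hr hn => ?_⟩
  have hm := gm_exponents n
  have hBP := hr.1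
  have hpath := hBP.2.1
  have hr0 := hBP.1
  have hn0 : (0 : ℝ) < (n : ℝ) + 1 := by positivity
  have hbd := h2 n (gm n) r hm hBP
  have hfix := hstat hr
  have hfn := hfix n le_rfl
  have hlast := Ml_last (n := n) (m := gm n) (r := r) hm hpath
  have hspn : spR n (gm n) r n = r n * (1 / b ^ 2) := by
    rw [hfn]
    field_simp
  have hrn0 : 0 ≤ r n := by
    have := gapn_path_le hpath (Nat.zero_le n) le_rfl
    rwa [hr0] at this
  rcases hrn0.eq_or_lt with hz | hpos
  · -- the case `r n = 0`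
    exfalso
    have h4 := h3 n d r hd hdn hr hz.symm
    have h5 : 1 / ((n : ℝ) + 1) ≤ c := by
      rw [div_le_iff₀ hn0]
      exact hn
    have h6 : K * (1 / ((n : ℝ) + 1)) ≤ (K + 1) * c :=
      mul_le_mul (by linarith) h5 (by positivity) (by linarith)
    have h7 : (K + 1) * c ≤ a / 2 := by
      have h8 := mul_le_mul_of_nonneg_left c4 (show 0 ≤ K + 1 by linarith)
      have h9 : (K + 1) * (a / (2 * (K + 1))) = a / 2 := by
        have : K + 1 ≠ 0 := by linarith
        field_simp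
      linarith
    linarith
  -- the first level with the value `r n`
  have hex : ∃ l, r l = r n := ⟨n, rfl⟩
  obtain ⟨p, hp⟩ : ∃ p, p = Nat.find hex := ⟨_, rfl⟩
  have hrp : r p = r n := by rw [hp]; exact Nat.find_spec hex
  have hpn : p ≤ n := by rw [hp]; exact Nat.find_min' hex rfl
  have hlow : ∀ l < p, r l ≠ r n := fun l hl => Nat.find_min hex (by rw [← hp]; exact hl)
  have hdp : d ≤ p := by
    by_contra hcon
    have := hr.2.1 p (by omega)
    rw [hrp] at this
    linarith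
  obtain ⟨l, hl⟩ : ∃ l, p = l + 1 := ⟨p - 1, by omega⟩
  have hln : l < n := by omega
  have hstep := sum_steps (M := Ml n (gm n) r) (fun i hi => sum_step H hm hpath hi (hbd i hi)) hpn
  rw [hrp, sub_self, mul_zero] at hstep
  have hrl : r l < r (l + 1) := by
    refine lt_of_le_of_ne (hpath.2 l hln) ?_
    rw [← hl, hrp]
    exact hlow l (by omega)
  have hV : 0 < r (l + 1) - r l := by linarith
  have hMV : Mb n (gm n) r l (r (l + 1) - r l) = Ml n (gm n) r p := by
    rw [hl]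
    exact Mb_last hm hpath hln
  rcases hdp.eq_or_lt with hd1 | hd1
  · -- `r` is constant above `d`
    have hrl0 : r l = 0 := hr.2.1 l (by omega)
    have e1 : Rb n (gm n) r l 0 = 0 := by
      rw [Rb_zero hm hpath hln]
      have h4 := hfix l hln.le
      rw [hrl0] at h4
      rcases mul_eq_zero.1 h4.symm with h5 | h5
      · exact absurd h5 hb2.ne'
      · exact h5
    have e2 : Rb n (gm n) r l (r (l + 1) - r l) = (r (l + 1) - r l) * (1 / b ^ 2) := by
      rw [Rb_last hm hpath hln]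
      have h4 := hfix (l + 1) hln
      rw [hrl0, sub_zero, mul_one_div, eq_div_iff hb2.ne']
      linarith
    obtain ⟨ξ, hξ, hξe⟩ := exists_hasDerivAt_eq_slope (Rb n (gm n) r l) (Mb n (gm n) r l) hV
      (Rb_cont hm hpath hln) (fun x hx => Rb_deriv hm hpath hln hx)
    rw [e1, e2, sub_zero, sub_zero, mul_div_right_comm, div_self hV.ne', one_mul] at hξe
    have h4 := sum_lip H hm hpath hln (hbd l hln) ⟨hξ.1.le, hξ.2.le⟩ (right_mem_Icc.2 hV.le)
      hξ.2.le
    rw [hMV, hξe] at h4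
    have h5 := (abs_le.1 h4).2
    have h6 : r (l + 1) - r l = r n := by rw [hrl0, sub_zero, ← hl, hrp]
    rw [h6] at h5
    have h7 : C2 * (r n - ξ) ≤ C2 * r n := mul_le_mul_of_nonneg_left (by linarith [hξ.1])
      (by linarith)
    rw [hspn] at hlast
    refine c2.trans ?_
    rw [div_le_iff₀ (by linarith)]
    have h8 : r n * (C2 + 2 * (1 / b ^ 2)) = C2 * r n + 2 * (r n * (1 / b ^ 2)) := by ring
    rw [h8, ha]
    linarith
  · -- a block above `d`
    have h4 := h1 n d r l e hr (by omega) (by omega) hln hrl he0 (hn.trans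
      (mul_le_mul_of_nonneg_right c3 hn0.le)) _ (right_mem_Icc.2 hV.le)
    rw [hMV, hCe] at h4
    have h5 := (abs_le.1 h4).2
    have h6 : a / 4 ≤ spR n (gm n) r n := by
      rw [ha] at h5 ⊢
      linarith
    rw [hfn]
    refine c1.trans ?_
    have h7 := mul_le_mul_of_nonneg_left h6 hb2.le
    linarith

end Vale.Agent.P146.Lb
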