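import Vale.Agent.P146.Lb.LLen
import Vale.Agent.P367.Cl.FRep

/-!
# P146, L1: the cost of exponents at least `x` is at least `c x⁵`
-/

open MeasureTheory ProbabilityTheory Filter Topology Set

namespace Vale.Agent.P146.Lb

open Vale.Agent.P157.Par
open Vale.Agent.P146.Gap
open Vale.Agent.P146.Pw2
open Vale.Agent.P367.Cl

/-- The competitor. -/
noncomputable def one_r (d2 d : ℕ) (τ : ℝ) (r : ℕ → ℝ) (l : ℕ) : ℝ :=
  if l < d2 then 0 else if l < d then τ else r l

theorem one_path {b τ : ℝ} {n d2 d : ℕ} {r : ℕ → ℝ} (hr : BPath b n r) (hd2 : 1 ≤ d2)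
    (hd : d2 ≤ d) (hdn : d ≤ n) (hτ : 0 ≤ τ) (hτr : τ ≤ r d) : BPath b n (one_r d2 d τ r) := by
  have h0 : one_r d2 d τ r 0 = 0 := by simp [one_r, show 0 < d2 by omega]
  refine ⟨h0, ⟨h0.ge, fun l hl => ?_⟩, ?_⟩
  · unfold one_r
    have h1 : 0 ≤ r (l + 1) := len_nonneg hr (by omega)
    split_ifs with h2 h3 h4 h5 h6 h7 <;> first | omega | exact le_rfl | exact hτ | exact h1 | skip
    · have : l + 1 = d := by omega
      rw [this]; exact hτr
    · exact hr.2.1.2 l hl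
  · unfold one_r
    rw [if_neg (by omega), if_neg (by omega)]
    exact hr.2.2

theorem one_fl {n d2 d : ℕ} {m r : ℕ → ℝ} {τ : ℝ} (hd : d2 ≤ d) :
    Fl n m (one_r d2 d τ r) d = Fl n m r d := by
  unfold Fl
  refine minb_congr (fun _ _ _ => rfl) (fun l _ => ?_) lc
  show one_r d2 d τ r (d + l) = r (d + l)
  unfold one_r
  rw [if_neg (by omega), if_neg (by omega)]

theorem one_spin {k : ℕ} {m r : ℕ → ℝ} (h0 : r 0 = 0) :
    spinPart k m r = cascade m r k lc 0 - r k / 2 := by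
  unfold spinPart
  rw [h0]
  simp
  rfl

theorem one_sum {n d2 d : ℕ} {r : ℕ → ℝ} {τ : ℝ} (hd : d2 ≤ d) (hdn : d ≤ n)
    (hr : ∀ l < d, r l = 0) :
    ∑ l ∈ Finset.range (n + 1), (gm n (l + 1) - gm n l) * one_r d2 d τ r l ^ 2 =
      (∑ l ∈ Finset.range (n + 1), (gm n (l + 1) - gm n l) * r l ^ 2) +
        (gm n d - gm n d2) * τ ^ 2 := by
  have hstep : ∀ l : ℕ, gm n (l + 1) - gm n l = 1 / (n + 1) := fun l => by
    unfold gm
    push_cast
    ring
  have h1 : ∀ l ∈ Finset.range (n + 1), (gm n (l + 1) - gm n l) * one_r d2 d τ r l ^ 2 =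
      (gm n (l + 1) - gm n l) * r l ^ 2 +
        if l ∈ Finset.Ico d2 d then 1 / ((n : ℝ) + 1) * τ ^ 2 else 0 := fun l _ => by
    rw [hstep]
    unfold one_r
    simp only [Finset.mem_Ico]
    by_cases h2 : l < d2
    · rw [if_pos h2, if_neg (by omega), hr l (by omega)]
      ring
    · rw [if_neg h2]
      by_cases h3 : l < d
      · rw [if_pos h3, if_pos (by omega), hr l h3]
        ring
      · rw [if_neg h3, if_neg (by omega)]
        ring
  rw [Finset.sum_congr rfl h1, Finset.sum_add_distrib]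
  congr 1
  rw [Finset.sum_ite_mem, Finset.inter_eq_right.2 (fun l hl => by
    rw [Finset.mem_Ico] at hl
    rw [Finset.mem_range]
    omega), Finset.sum_const, Nat.card_Ico, nsmul_eq_mul, Nat.cast_sub hd]
  unfold gm
  ring

theorem l1 {b : ℝ} (hb : 1 < b) : ∃ c C : ℝ, 0 < c ∧ 1 ≤ C ∧ ∀ n d : ℕ, 1 ≤ d → d ≤ n →
    gm n d ≤ c → C ≤ gm n d ^ 8 * (n + 1) → ∃ r', BPath b n r' ∧ ∀ q : ℕ → ℝ,
      Vale.Agent.P157.Par.Path n q → q n ≤ 1 →
      (∀ l < d, q l = 0) → SKr b n (gm n) r' + c * gm n d ^ 5 ≤ SKpar b n (gm n) q := by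
  obtain ⟨a, c, C, ha, hc, hC, hgain⟩ := gainD hb
  obtain ⟨K, hK, htilt⟩ := Rf_tilt4 (b ^ 2)
  have hb0 : 0 < b := by linarith
  have hb2 : 0 < b ^ 2 := by positivity
  set θ := min (1 / 2) (c / (K * a ^ 3 + 1)) with hθ
  have hθ0 : 0 < θ := by positivity
  have hθ1 : θ ≤ 1 / 2 := min_le_left _ _
  have hθ2 : K * θ * a ^ 3 ≤ c := by
    have h1 : θ * (K * a ^ 3 + 1) ≤ c := by
      have := min_le_right (1 / 2) (c / (K * a ^ 3 + 1))
      rw [← hθ, le_div_iff₀ (by positivity)] at this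
      exact this
    nlinarith
  refine ⟨min c (min 1 (θ * c / 8)), max C (1 / θ), by positivity, le_max_of_le_left hC,
    fun n d hd1 hdn hx hCx => ?_⟩
  obtain ⟨d0, rfl⟩ : ∃ d0, d = d0 + 1 := ⟨d - 1, by omega⟩
  set x := gm n (d0 + 1) with hxdef
  have hx0 : 0 < x := grid_gm_pos hd1
  have hx1 : x ≤ 1 := hx.trans ((min_le_right _ _).trans (min_le_left _ _))
  have hn1 : (0 : ℝ) < n + 1 := by positivity
  have hm := gm_exponents n
  obtain ⟨r, hmin⟩ := exists_minD (n := n) hb0 hdn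
  obtain ⟨haV, hint⟩ := hgain n d0 r hmin (by omega) (hx.trans (min_le_left _ _))
    ((le_max_left _ _).trans hCx)
  have hr := hmin.1
  set τ := a * x with hτ
  have hτ0 : 0 < τ := by positivity
  set V := r (d0 + 1) with hV
  have hVb : V ≤ b ^ 2 := (len_mono hr hdn le_rfl).trans hr.2.2
  have hrd : r d0 = 0 := hmin.2.1 d0 (Nat.lt_succ_self _)
  -- the shift of the exponent
  have hdR : ((d0 + 1 : ℕ) : ℝ) = x * (n + 1) := by
    rw [hxdef]
    unfold gm
    field_simp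
  have hθd : 1 ≤ θ * ((d0 + 1 : ℕ) : ℝ) := by
    have h1 : 1 / θ ≤ x ^ 8 * (n + 1) := (le_max_right _ _).trans hCx
    have h2 : x ^ 8 * ((n : ℝ) + 1) ≤ x * (n + 1) := by
      refine mul_le_mul_of_nonneg_right ?_ hn1.le
      calc x ^ 8 ≤ x ^ 1 := pow_le_pow_of_le_one hx0.le hx1 (by norm_num)
        _ = x := pow_one x
    rw [hdR]
    have h3 : 1 / θ ≤ x * (n + 1) := h1.trans h2
    rw [div_le_iff₀ hθ0] at h3
    linarith
  set j := ⌊θ * ((d0 + 1 : ℕ) : ℝ)⌋₊ with hj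
  have hj1 : 1 ≤ j := by
    rw [hj, Nat.one_le_floor_iff]
    exact hθd
  have hjle : (j : ℝ) ≤ θ * ((d0 + 1 : ℕ) : ℝ) := Nat.floor_le (by positivity)
  have hjge : θ * ((d0 + 1 : ℕ) : ℝ) / 2 ≤ j := by
    have h1 := Nat.lt_floor_add_one (θ * ((d0 + 1 : ℕ) : ℝ))
    rw [← hj] at h1
    have h2 : (1 : ℝ) ≤ j := by exact_mod_cast hj1
    linarith
  have hjd : 2 * j ≤ d0 + 1 := by
    have h1 : (2 * j : ℝ) ≤ ((d0 + 1 : ℕ) : ℝ) := by nlinarith
    exact_mod_cast h1
  obtain ⟨d2, hd2⟩ : ∃ d2, d0 + 1 = d2 + j := ⟨d0 + 1 - j, by omega⟩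
  have hd21 : 1 ≤ d2 := by omega
  set x' := gm n d2 with hx'
  have hx'0 : 0 < x' := grid_gm_pos hd21
  have hxx : x - x' = j / (n + 1) := by
    have h1 : ((d0 + 1 : ℕ) : ℝ) = d2 + j := by exact_mod_cast hd2
    rw [hxdef, hx']
    unfold gm
    rw [h1]
    ring
  have hxx1 : x - x' ≤ θ * x := by
    rw [hxx, div_le_iff₀ hn1]
    calc (j : ℝ) ≤ θ * ((d0 + 1 : ℕ) : ℝ) := hjle
      _ = θ * x * (n + 1) := by rw [hdR]; ring
  have hxx2 : θ * x / 2 ≤ x - x' := by
    rw [hxx, le_div_iff₀ hn1]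
    calc θ * x / 2 * (n + 1) = θ * ((d0 + 1 : ℕ) : ℝ) / 2 := by rw [hdR]; ring
      _ ≤ j := hjge
  have hxx0 : 0 < x - x' := (by positivity : 0 < θ * x / 2).trans_le hxx2
  -- the competitor
  have hd2d : d2 ≤ d0 + 1 := by omega
  have hpath := one_path (τ := τ) hr hd21 hd2d hdn hτ0.le haV
  refine ⟨one_r d2 (d0 + 1) τ r, hpath, fun q hq hq1 hq0 => ?_⟩
  -- the value of the minimiser
  have hmq : SKr b n (gm n) r ≤ SKpar b n (gm n) q := by
    have h1 := hmin.2.2 (fun l => b ^ 2 * q l) ⟨by simp [hq0 0 (by omega)],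
      ⟨mul_nonneg hb2.le hq.1, fun l hl => mul_le_mul_of_nonneg_left (hq.2 l hl) hb2.le⟩, by
        show b ^ 2 * q n ≤ b ^ 2
        nlinarith⟩ (fun l hl => by simp [hq0 l hl])
    have h2 : SKpar b n (gm n) q = SKr b n (gm n) (fun l => b ^ 2 * q l) := by
      unfold SKpar SKr
      have h3 : ∀ l, (gm n (l + 1) - gm n l) * (b ^ 2 * q l) ^ 2 =
          b ^ 4 * ((gm n (l + 1) - gm n l) * q l ^ 2) := fun l => by ring
      simp only [h3]
      rw [← Finset.mul_sum]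
      field_simp
      ring
    rw [h2]
    exact h1
  -- the cascades
  obtain ⟨CG, hG⟩ : ∃ CG, Good (gm n (d0 + 1)) CG (Fl n (gm n) r (d0 + 1)) := by
    obtain ⟨C0, h0⟩ := fl_good hm hr.2.1 hdn
    exact ⟨C0, h0.lower hx0 (grid_gm_mono (Nat.le_succ _))⟩
  set G := Fl n (gm n) r (d0 + 1) with hGdef
  have hGa := hG.adm
  have hpos : ∀ l, 1 ≤ l → l ≤ d0 + 1 → gm n l ≠ 0 := fun l h1 _ => (grid_gm_pos h1).ne'
  have c1 : cascade (gm n) r n lc 0 = gstep x V G 0 := by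
    rw [fl_split hdn, minb_block (by omega) hpos (fun l hl => by
      rw [hmin.2.1 l hl, hmin.2.1 0 (by omega)]), hr.1, sub_zero]
  set H := gstep x (V - τ) G with hH
  have c2 : cascade (gm n) (one_r d2 (d0 + 1) τ r) n lc 0 = gstep x' τ H 0 := by
    rw [fl_split hdn, one_fl hd2d, ← hGdef, cascade_succ_def]
    have e1 : one_r d2 (d0 + 1) τ r (d0 + 1) = V := by
      unfold one_r
      rw [if_neg (by omega), if_neg (by omega)]
    have e2 : one_r d2 (d0 + 1) τ r d0 = τ := by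
      unfold one_r
      rw [if_neg (by omega), if_pos (by omega)]
    rw [e1, e2, ← hxdef, ← hH]
    have e3 : d2 + (j - 1) = d0 := by omega
    have e4 : cascade (gm n) (one_r d2 (d0 + 1) τ r) d0 H =
        cascade (gm n) (one_r d2 (d0 + 1) τ r) d2 H := by
      have := grid_const (m := gm n) (r := one_r d2 (d0 + 1) τ r) (L := d2) (j - 1) H
        (fun l h1 _ => grid_gm_pos h1) (fun l h1 h2 => by
          unfold one_r
          rw [if_neg (by omega), if_pos (by omega), if_neg (by omega), if_pos (by omega)])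
      rwa [e3] at this
    rw [e4, minb_block hd21 (fun l h1 _ => (grid_gm_pos h1).ne') (fun l hl => by
      unfold one_r
      rw [if_pos hl, if_pos (by omega)])]
    have e5 : one_r d2 (d0 + 1) τ r d2 = τ := by
      unfold one_r
      rw [if_neg (by omega), if_pos (by omega)]
    have e6 : one_r d2 (d0 + 1) τ r 0 = 0 := hpath.1
    rw [e5, e6, sub_zero]
  have hHa : ∃ CH, Adm CH H := by
    have := hG.step hx0 le_rfl hx1 (s := V - τ) (by linarith)
    exact ⟨_, this.adm⟩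
  obtain ⟨CH, hHa⟩ := hHa
  have c3 : gstep x V G 0 = gstep x τ H 0 := by
    rw [hH, gstep_add hGa hx0 hτ0.le (by linarith)]
    congr 2
    ring
  have hx'1 : x' ≤ 1 := by linarith
  have c4 := gstep_diff hHa hx0 hx1 hx'0 hx'1 hτ0.le 0
  -- the integrand
  have c5 : ∀ s ∈ Icc 0 τ, Rb n (gm n) r d0 s - K * (x - x') * s ^ 2 ≤ Rf x' x τ H s := by
    intro s hs
    have h1 := htilt CH x x' x τ H hHa hx0 hx1 hx'0 (by linarith) hx1 (haV.trans hVb) s hs
    have h2 : Rb n (gm n) r d0 s = Rf x x τ H s := by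
      have e1 : Gb n (gm n) r d0 s = gstep x (τ - s) H := by
        unfold Gb
        rw [hH, gstep_add hGa hx0 (by linarith [hs.2]) (by linarith), hrd]
        have e2 : V - 0 - s = τ - s + (V - τ) := by ring
        rw [← hxdef, ← hGdef, ← hV, e2]
      unfold Rb Bt
      have hcb : ∃ C', Adm C' (Gb n (gm n) r d0 s) := by
        rw [e1]
        have := hG.step hx0 le_rfl hx1 (s := V - s) (by linarith [hs.2])
        rw [hH, gstep_add hGa hx0 (by linarith [hs.2]) (by linarith)]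
        have e2 : τ - s + (V - τ) = V - s := by ring
        rw [e2]
        exact ⟨_, this.adm⟩
      obtain ⟨C', hC'⟩ := hcb
      rw [rep_zero hm hr.2.1 hr.1 (by omega) hrd
        (sp7_cb_tlt (adm_ec hC') (nest_cb_pow (nest_cb1 hC') 2) _ _), e1]
      rfl
    rw [h2]
    linarith
  have hRbc : ContinuousOn (Rb n (gm n) r d0) (Icc 0 τ) := by
    refine (Rb_cont hm hr.2.1 (by omega)).mono (Icc_subset_Icc_right ?_)
    rw [hrd, sub_zero]
    exact haV
  have i1 : IntervalIntegrable (Rb n (gm n) r d0) volume 0 τ :=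
    ContinuousOn.intervalIntegrable (by rw [uIcc_of_le hτ0.le]; exact hRbc)
  have i2 : IntervalIntegrable (fun s => K * (x - x') * s ^ 2) volume 0 τ :=
    Continuous.intervalIntegrable (by fun_prop) _ _
  have i3 : IntervalIntegrable (Rf x' x τ H) volume 0 τ :=
    ContinuousOn.intervalIntegrable (by
      rw [uIcc_of_le hτ0.le]
      exact Rf_cont hHa hx0 hx1 hx'0 hx'1)
  have c6 := intervalIntegral.integral_mono_on hτ0.le (i1.sub i2) i3 c5
  have c7 : ∫ s in (0 : ℝ)..τ, (Rb n (gm n) r d0 s - K * (x - x') * s ^ 2) =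
      (∫ s in (0 : ℝ)..τ, Rb n (gm n) r d0 s) - K * (x - x') * (τ ^ 3 / 3) := by
    rw [intervalIntegral.integral_sub i1 i2, intervalIntegral.integral_const_mul, integral_pow]
    norm_num
  have c8 : ∫ s in (0 : ℝ)..τ, (Rb n (gm n) r d0 s - s / b ^ 2) =
      (∫ s in (0 : ℝ)..τ, Rb n (gm n) r d0 s) - τ ^ 2 / 2 / b ^ 2 := by
    rw [intervalIntegral.integral_sub i1 (Continuous.intervalIntegrable (by fun_prop) _ _),
      intervalIntegral.integral_div, integral_id]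
    norm_num
  rw [c7] at c6
  rw [c8] at hint
  -- the difference of the values
  have hdiff : SKr b n (gm n) (one_r d2 (d0 + 1) τ r) - SKr b n (gm n) r =
      (gstep x' τ H 0 - gstep x τ H 0) + (x - x') * τ ^ 2 / (4 * b ^ 2) := by
    unfold SKr
    rw [one_spin hpath.1, one_spin hr.1, c1, c2, c3, one_sum hd2d hdn hmin.2.1]
    have e1 : one_r d2 (d0 + 1) τ r n = r n := by
      unfold one_r
      rw [if_neg (by omega), if_neg (by omega)]
    rw [e1, ← hxdef, ← hx']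
    ring
  have c9 : gstep x' τ H 0 - gstep x τ H 0 = 1 / 2 * (x' - x) * ∫ s in (0 : ℝ)..τ,
      Rf x' x τ H s := c4
  rw [c9] at hdiff
  set I := ∫ s in (0 : ℝ)..τ, Rf x' x τ H s with hI
  set J := ∫ s in (0 : ℝ)..τ, Rb n (gm n) r d0 s with hJ
  have k1 : K * (x - x') * (τ ^ 3 / 3) ≤ c * x ^ 4 / 3 := by
    have h1 : K * (x - x') ≤ K * (θ * x) := mul_le_mul_of_nonneg_left hxx1 hK
    have h2 : K * (x - x') * (τ ^ 3 / 3) ≤ K * (θ * x) * (τ ^ 3 / 3) :=
      mul_le_mul_of_nonneg_right h1 (by positivity)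
    have h3 : K * (θ * x) * (τ ^ 3 / 3) = K * θ * a ^ 3 * (x ^ 4 / 3) := by rw [hτ]; ring
    have h4 : K * θ * a ^ 3 * (x ^ 4 / 3) ≤ c * (x ^ 4 / 3) :=
      mul_le_mul_of_nonneg_right hθ2 (by positivity)
    linarith
  have k2 : c * x ^ 4 / 2 ≤ I - τ ^ 2 / 2 / b ^ 2 := by
    have : 0 < c * x ^ 4 := by positivity
    linarith
  have k3 : 1 / 2 * (x' - x) * I + (x - x') * τ ^ 2 / (4 * b ^ 2) =
      -(1 / 2 * (x - x') * (I - τ ^ 2 / 2 / b ^ 2)) := by
    field_simp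
    ring
  have k4 : 1 / 2 * (θ * x / 2) * (c * x ^ 4 / 2) ≤
      1 / 2 * (x - x') * (I - τ ^ 2 / 2 / b ^ 2) :=
    mul_le_mul (by linarith) k2 (by positivity) (by linarith)
  have k5 : 1 / 2 * (θ * x / 2) * (c * x ^ 4 / 2) = θ * c / 8 * x ^ 5 := by ring
  have k6 : min c (min 1 (θ * c / 8)) * x ^ 5 ≤ θ * c / 8 * x ^ 5 :=
    mul_le_mul_of_nonneg_right ((min_le_right _ _).trans (min_le_right _ _)) (by positivity)
  linarith

end Vale.Agent.P146.Lb
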